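import Crest.Agent.X261.Wand.Core
import Crest.Agent.X261.Psh.Reg
import Crest.Agent.R273.RegA_844

/-!
# Row 261, package WAND (helper57), file `Main`

* `exists_apx` : psh functions near a closed polydisc have smooth psh approximants;
* `wand` : **the wandering lemma**.  There are no psh functions `G k ≤ φ + C` with logarithmic
  poles at points `x k → z` where `e^{-Nφ}` is integrable, such that the sets `{G k < φ - a}`
  escape almost everywhere.
-/

set_option autoImplicit false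

open Set Filter Topology MeasureTheory Metric
open scoped ENNReal

noncomputable section

namespace Crest.Agent.X261.Wand

open Crest.Agent.R271.Ball399 Crest.Agent.X261.Psh
open Crest.Agent.X261.Wand.Solve Crest.Agent.X261.Wand.Step Crest.Agent.X261.Wand.Core

section pi

variable {n : ℕ}

theorem lev0_nonneg {U : Set (Fin n → ℂ)} (hU : IsOpen U) {f : (Fin n → ℂ) → ℝ}
    (hs : ContDiffOn ℝ (⊤ : ℕ∞) f U) (hp : IsPsh U fun x => (f x : EReal)) {z : Fin n → ℂ}
    (hz : z ∈ U) (w : Fin n → ℂ) : 0 ≤ lev0 f z w := by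
  have h2 : ContDiffAt ℝ 2 f z := (hs.contDiffAt (hU.mem_nhds hz)).of_le (by norm_cast)
  have h3 : DifferentiableAt ℝ (fderiv ℝ f) z :=
    (h2.fderiv_right (m := 1) (by norm_num)).differentiableAt (by simp)
  have key : ∀ v, fderiv ℝ (fun y => fderiv ℝ f y v) z v = fderiv ℝ (fderiv ℝ f) z v v := by
    intro v
    rw [fderiv_clm_apply h3 (differentiableAt_const v)]
    simp
  obtain ⟨δ, hδ, hsub⟩ := Metric.isOpen_iff.1 hU z hz
  have h4 := R273.Reg_844.lap_nonneg h2 (v := w) (by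
    have hr1 : ∀ᶠ r : ℝ in 𝓝[>] 0, r < δ / (‖w‖ + 1) :=
      nhdsWithin_le_nhds (gt_mem_nhds (by positivity))
    filter_upwards [hr1, self_mem_nhdsWithin] with r hr2 hr0
    have hr0 : 0 < r := hr0
    rw [R275.FL606.av_eq_circleAverage]
    refine (isPsh_coe_iff hs.continuousOn).1 hp z _ fun t ht => hsub ?_
    have h5 : r * (‖w‖ + 1) < δ := (lt_div_iff₀ (by positivity)).1 hr2
    rw [mem_ball, dist_eq_norm, add_sub_cancel_left, norm_smul, norm_smul, Real.norm_eq_abs,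
      abs_of_pos hr0]
    calc ‖t‖ * (r * ‖w‖) ≤ 1 * (r * ‖w‖) := by gcongr
      _ < δ := by nlinarith)
  rw [lev0, key, key]
  linarith

theorem exists_apx {U : Set (Fin n → ℂ)} (hU : IsOpen U) {u : (Fin n → ℂ) → EReal}
    (hu : IsPsh U u) {r : ℝ} (hr : closedBall 0 r ⊆ U) : ∃ f, Apx r u f := by
  obtain ⟨V, hV, hKV, -, f, h1, h2, h3, h4⟩ := hu.exists_smooth hU (isCompact_closedBall 0 r) hr
  have hB : ball (0 : Fin n → ℂ) r ⊆ V := ball_subset_closedBall.trans hKV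
  obtain ⟨M, hM⟩ := (isCompact_closedBall 0 r).bddAbove_image ((h1 0).continuousOn.mono hKV)
  refine ⟨f, fun j => ⟨(h1 j).mono hB, fun z hz => lev0_nonneg hV (h1 j) (h2 j) (hB hz)⟩,
    ⟨M, fun j z hz => (h3 z (hB hz) (Nat.zero_le j)).trans
      (hM (mem_image_of_mem _ (ball_subset_closedBall hz)))⟩, ?_, ?_⟩
  · filter_upwards [ae_restrict_mem measurableSet_ball] with z hz j
    exact Antitone.le_of_tendsto (f := fun k => (f k z : EReal))
      (fun a b h => EReal.coe_le_coe_iff.2 (h3 z (hB hz) h)) (h4 z (hB hz)) j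
  · filter_upwards [ae_restrict_mem measurableSet_ball] with z hz t ht
    exact ((h4 z (hB hz)).eventually (gt_mem_nhds ht)).mono fun j hj =>
      EReal.coe_lt_coe_iff.1 hj

/-- **Bombieri's lemma** for psh weights near a closed polydisc -/
theorem exists_hol_eq_one (hn : 0 < n) {U : Set (Fin n → ℂ)} (hU : IsOpen U)
    {u : (Fin n → ℂ) → EReal} (hu : IsPsh U u) {r : ℝ} (hr : closedBall 0 r ⊆ U)
    {x : Fin n → ℂ} (hx : x ∈ ball (0 : Fin n → ℂ) r) {V : Set (Fin n → ℂ)} (hV : V ∈ 𝓝 x)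
    (hfin : ∫⁻ z in V, EReal.exp (-u z) < ∞) :
    ∃ h : (Fin n → ℂ) → ℂ, DifferentiableOn ℂ h (ball 0 r) ∧
      ∫⁻ z in ball (0 : Fin n → ℂ) r, ‖h z‖ₑ ^ 2 * EReal.exp (-u z) < ∞ ∧ h x = 1 := by
  obtain ⟨f, hf⟩ := exists_apx hU hu hr
  exact bombieri hn (pos_of_mem_ball hx) hf hx hV hfin

theorem wand_pi (hn : 0 < n) {U : Set (Fin n → ℂ)} (hU : IsOpen U) (hz : (0 : Fin n → ℂ) ∈ U)
    {φ : (Fin n → ℂ) → EReal} (hφ : IsPsh U φ) {G : ℕ → (Fin n → ℂ) → EReal}
    (hG : ∀ k, IsPsh U (G k)) {x : ℕ → Fin n → ℂ} (hx : Tendsto x atTop (𝓝 0)) {C a : ℝ}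
    (h1 : ∀ k, ∀ᵐ y, y ∈ U → G k y ≤ φ y + C)
    (h2 : ∀ᵐ y, y ∈ U → ∀ᶠ k in atTop, φ y ≤ G k y + a)
    (h3 : ∀ k, ∃ C' : ℝ, ∀ᶠ y in 𝓝[≠] (x k),
      G k y ≤ ((4 * n * Real.log ‖y - x k‖ + C' : ℝ) : EReal))
    (h4 : ∀ k, ∃ V ∈ 𝓝 (x k), ∫⁻ y in V, EReal.exp (-φ y) < ∞) : False := by
  obtain ⟨r, hr, hsub⟩ := nhds_basis_closedBall.mem_iff.1 (hU.mem_nhds hz)
  have hB : ball (0 : Fin n → ℂ) r ⊆ U := ball_subset_closedBall.trans hsub
  obtain ⟨k0, hk0⟩ := eventually_atTop.1 (hx.eventually (ball_mem_nhds 0 hr))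
  obtain ⟨f, hf⟩ := exists_apx hU hφ hsub
  have hG' : ∀ k, IsPsh U fun y => G (k + k0) y + ((a + 2 : ℝ) : EReal) := fun k =>
    (hG _).add_const _
  choose g hg using fun k => exists_apx hU (hG' k) hsub
  have : Nonempty (Fin n) := ⟨⟨0, hn⟩⟩
  refine wand_apx hn hr hf hg (x := fun k => x (k + k0)) (fun k => hk0 _ (Nat.le_add_left _ _))
    (mem_ball_self hr) (hx.comp (tendsto_add_atTop_nat k0)) (C := C + (a + 2))
    (T := fun k => {y | G (k + k0) y + ((a + 2 : ℝ) : EReal) < φ y + (2 : ℝ)})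
    (fun k => ?_) (fun k => ?_) (fun k => Eventually.of_forall fun y hy => not_lt.1 hy) ?_
    (fun k => ?_) fun k => h4 _
  · filter_upwards [ae_restrict_of_ae (h1 (k + k0)), ae_restrict_mem measurableSet_ball]
      with y hy hyB
    rw [EReal.coe_add C, ← add_assoc]
    exact add_le_add (hy (hB hyB)) le_rfl
  · exact nullMeasurableSet_lt ((hG' k).aemeasurable hU volume measurableSet_ball hB)
      ((hφ.add_const 2).aemeasurable hU volume measurableSet_ball hB)
  · filter_upwards [ae_restrict_of_ae h2, ae_restrict_mem measurableSet_ball] with y hy hyB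
    filter_upwards [(tendsto_add_atTop_nat k0).eventually (hy (hB hyB))] with k hk
    rw [not_lt, EReal.coe_add a, ← add_assoc]
    exact add_le_add hk le_rfl
  · obtain ⟨C', hC'⟩ := h3 (k + k0)
    refine ⟨C' + (a + 2), _, eventually_nhdsWithin_iff.1 hC', ?_⟩
    filter_upwards [ae_restrict_of_ae (compl_mem_ae_iff.2 (measure_singleton (x (k + k0))))]
      with y hy hy'
    rw [← add_assoc, EReal.coe_add _ (a + 2)]
    exact add_le_add (hy' hy) le_rfl

end pi

theorem mul_le_mul_add {N C : ℝ} (hN : 0 ≤ N) {a b : EReal} (h : a ≤ b + C) :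
    (N : EReal) * a ≤ N * b + ((N * C : ℝ) : EReal) := by
  rw [EReal.coe_mul, ← EReal.left_distrib_of_nonneg_of_ne_top (EReal.coe_nonneg.2 hN)
    (EReal.coe_ne_top N)]
  exact mul_le_mul_of_nonneg_left h (EReal.coe_nonneg.2 hN)

/-- **the wandering lemma** -/
theorem wand {E : Type*} [NormedAddCommGroup E] [NormedSpace ℂ E] [FiniteDimensional ℂ E]
    [Nontrivial E] [MeasurableSpace E] [BorelSpace E] (μ : Measure E) [μ.IsAddHaarMeasure]
    {U : Set E} (hU : IsOpen U) {z : E} (hz : z ∈ U) {φ : E → EReal} (hφ : IsPsh U φ)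
    {G : ℕ → E → EReal} (hG : ∀ k, IsPsh U (G k)) {x : ℕ → E} (hx : Tendsto x atTop (𝓝 z))
    {C a c N : ℝ} (hN : 0 ≤ N) (hc : 4 * (Module.finrank ℂ E : ℝ) ≤ N * c)
    (h1 : ∀ k, ∀ᵐ y ∂μ, y ∈ U → G k y ≤ φ y + C)
    (h2 : ∀ᵐ y ∂μ, y ∈ U → ∀ᶠ k in atTop, φ y ≤ G k y + a)
    (h3 : ∀ k, ∃ C' : ℝ, ∀ᶠ y in 𝓝[≠] (x k),
      G k y ≤ ((c * Real.log ‖y - x k‖ + C' : ℝ) : EReal))
    (h4 : ∀ k, ∃ V ∈ 𝓝 (x k), ∫⁻ y in V, EReal.exp (-(N * φ y)) ∂μ < ∞) : False := by
  set n := Module.finrank ℂ E with hn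
  have hn0 : 0 < n := Module.finrank_pos
  set L : (Fin n → ℂ) ≃L[ℂ] E := ContinuousLinearEquiv.ofFinrankEq (by simp [hn]) with hL
  set A : (Fin n → ℂ) ≃ₜ E := L.toHomeomorph.trans (Homeomorph.addLeft z) with hA
  have hAa : ∀ y, A y = z + L y := fun _ => rfl
  have : ProperSpace E := FiniteDimensional.proper ℂ E
  obtain ⟨s, hs⟩ : ∃ s : NNReal, Measure.map A volume = s • μ := by
    have e : (A : (Fin n → ℂ) → E) = (fun y => z + y) ∘ L := rfl
    rw [e, ← Measure.map_map (measurable_const_add z) L.continuous.measurable,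
      map_add_left_eq_self]
    exact ⟨_, Measure.isAddLeftInvariant_eq_smul _ μ⟩
  have hae : ∀ {p : E → Prop}, (∀ᵐ y ∂μ, p y) → ∀ᵐ y, p (A y) := fun h =>
    ae_of_ae_map A.continuous.aemeasurable (hs ▸ Measure.ae_smul_measure h s)
  have hpsh : ∀ {u : E → EReal}, IsPsh U u → IsPsh (A ⁻¹' U) fun y => (N : EReal) * u (A y) :=
    fun h => (h.comp_affine (L : (Fin n → ℂ) →L[ℂ] E) z).smul hN
  refine wand_pi hn0 (hU.preimage A.continuous) (by simpa [hAa] using hz) (hpsh hφ)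
    (fun k => hpsh (hG k)) (x := fun k => A.symm (x k)) ?_ (C := N * C) (a := N * a)
    (fun k => (hae (h1 k)).mono fun y hy hyU => mul_le_mul_add hN (hy hyU))
    ((hae h2).mono fun y hy hyU => (hy hyU).mono fun k hk => mul_le_mul_add hN hk)
    (fun k => ?_) fun k => ?_
  · have := (A.symm.continuous.tendsto z).comp hx
    rwa [show A.symm z = 0 from A.symm_apply_eq.2 (by simp [hAa])] at this
  · obtain ⟨C', hC'⟩ := h3 k
    set K : ℝ := ‖(L : (Fin n → ℂ) →L[ℂ] E)‖ + 1 with hK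
    have hK0 : 0 < K := by positivity
    refine ⟨4 * n * Real.log K + N * C', ?_⟩
    have t1 : Tendsto A (𝓝[≠] (A.symm (x k))) (𝓝[≠] (x k)) := by
      refine tendsto_nhdsWithin_iff.2 ⟨?_, ?_⟩
      · simpa using (A.continuous.tendsto (A.symm (x k))).mono_left nhdsWithin_le_nhds
      · filter_upwards [self_mem_nhdsWithin] with y hy h0
        exact hy (A.eq_symm_apply.2 h0)
    filter_upwards [t1.eventually hC', t1.eventually self_mem_nhdsWithin,
      t1.eventually (nhdsWithin_le_nhds (ball_mem_nhds (x k) one_pos))] with y hy1 hy2 hy3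
    refine (coe_mul_le hN hy1).trans (EReal.coe_le_coe_iff.2 ?_)
    have e : A y - x k = L (y - A.symm (x k)) := by
      conv_lhs => rw [← A.apply_symm_apply (x k)]
      rw [hAa, hAa, map_sub, add_sub_add_left_eq_sub]
    have p1 : 0 < ‖A y - x k‖ := norm_pos_iff.2 (sub_ne_zero.2 hy2)
    have p2 : ‖A y - x k‖ ≤ K * ‖y - A.symm (x k)‖ := by
      rw [e]
      refine ((L : (Fin n → ℂ) →L[ℂ] E).le_opNorm _).trans ?_
      gcongr
      linarith
    have p3 : 0 < ‖y - A.symm (x k)‖ := pos_of_mul_pos_right (p1.trans_le p2) hK0.le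
    have p4 := Real.log_le_log p1 p2
    rw [Real.log_mul hK0.ne' p3.ne'] at p4
    have p5 : Real.log ‖A y - x k‖ ≤ 0 :=
      Real.log_nonpos p1.le (le_of_lt (by simpa [dist_eq_norm] using hy3))
    have p6 : (0 : ℝ) ≤ n := Nat.cast_nonneg n
    nlinarith [mul_le_mul_of_nonpos_right hc p5]
  · obtain ⟨V, hV, hfin⟩ := h4 k
    refine ⟨A ⁻¹' V, A.continuous.continuousAt.preimage_mem_nhds (by simpa using hV), ?_⟩
    have e := A.measurableEmbedding.lintegral_map (μ := volume.restrict (A ⁻¹' V))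
      fun y => EReal.exp (-(N * φ y))
    rw [← e, ← A.measurableEmbedding.restrict_map, hs, Measure.restrict_smul,
      lintegral_smul_measure]
    exact ENNReal.mul_lt_top ENNReal.coe_lt_top hfin

end Crest.Agent.X261.Wand
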