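import Crest.Agent.R275.Loc2C_879

/-!
# Row 261, package WAND (helper57), file `Ubp`

* `ubp` : an abstract consequence of the uniform boundedness principle;
* `exists_fin_bound` : a family of germs of holomorphic functions is dominated by finitely many
  of its members (the ring of germs is Noetherian).
-/

set_option autoImplicit false
set_option linter.style.haveILetI false

open Set Filter Topology

noncomputable section

namespace Crest.Agent.X261.Wand.Ubp

/-- nonzero bounded functionals `l k` on a complete seminormed space cannot both tend weakly to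
zero after normalisation and be dominated by their values at finitely many vectors -/
theorem ubp {V : Type*} [AddCommGroup V] [Module ℂ V] (p : Seminorm ℂ V)
    (hc : ∀ u : ℕ → V, (∀ ε > 0, ∃ N, ∀ m ≥ N, ∀ k ≥ N, p (u m - u k) < ε) →
      ∃ v, Tendsto (fun m => p (u m - v)) atTop (𝓝 0))
    (l : ℕ → V →ₗ[ℂ] ℂ) (hb : ∀ k, ∃ C : ℝ, ∀ v, ‖l k v‖ ≤ C * p v)
    (hne : ∀ k, ∃ v, l k v ≠ 0)
    (hap : ∀ v, ∀ ε > 0, ∀ᶠ k in atTop, ∃ v', l k v' = 0 ∧ p (v - v') ≤ ε)
    (e : Finset V) (hfg : ∀ v, ∃ m : ℝ, ∀ᶠ k in atTop, ‖l k v‖ ≤ m * ∑ i ∈ e, ‖l k i‖) :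
    False := by
  letI : SeminormedAddCommGroup V := p.toAddGroupSeminorm.toSeminormedAddCommGroup
  have hn : ∀ v : V, ‖v‖ = p v := fun _ => rfl
  letI : NormedSpace ℂ V := ⟨fun c x => by rw [hn, hn, map_smul_eq_mul]⟩
  haveI : CompleteSpace V := by
    refine Metric.complete_of_cauchySeq_tendsto fun u hu => ?_
    obtain ⟨v, hv⟩ := hc u fun ε hε => by
      obtain ⟨N, hN⟩ := Metric.cauchySeq_iff.1 hu ε hε
      exact ⟨N, fun m hm k hk => by rw [← hn, ← dist_eq_norm]; exact hN m hm k hk⟩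
    exact ⟨v, tendsto_iff_norm_sub_tendsto_zero.2 hv⟩
  choose C hC using hb
  set L : ℕ → V →L[ℂ] ℂ := fun k => (l k).mkContinuous (C k) (hC k) with hL
  have hLl : ∀ k v, L k v = l k v := fun _ _ => rfl
  have hpos : ∀ k, 0 < ‖L k‖ := by
    intro k
    obtain ⟨v, hv⟩ := hne k
    refine lt_of_le_of_ne (norm_nonneg _) fun h => hv ?_
    have := (L k).le_opNorm v
    rw [← h, zero_mul, hLl] at this
    exact norm_le_zero_iff.1 this
  have hweak : ∀ v, Tendsto (fun k => ‖l k v‖ / ‖L k‖) atTop (𝓝 0) := by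
    intro v
    refine tendsto_order.2 ⟨fun a ha => Eventually.of_forall fun k =>
      ha.trans_le (by positivity), fun a ha => ?_⟩
    filter_upwards [hap v (a / 2) (by positivity)] with k ⟨v', h1, h2⟩
    have h3 := (L k).le_opNorm (v - v')
    rw [hLl, map_sub, h1, sub_zero, hn] at h3
    rw [div_lt_iff₀ (hpos k)]
    have := hpos k
    nlinarith
  set ε : ℕ → ℝ := fun k => (∑ i ∈ e, ‖l k i‖ / ‖L k‖) + 1 / ((k : ℝ) + 1) with hε
  have hε0 : ∀ k, 0 < ε k := fun k => by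
    have : 0 ≤ ∑ i ∈ e, ‖l k i‖ / ‖L k‖ := Finset.sum_nonneg fun i _ => by positivity
    positivity
  have hεt : Tendsto ε atTop (𝓝 0) := by
    have := (tendsto_finsetSum e fun i _ => hweak i).add
      (tendsto_one_div_add_atTop_nhds_zero_nat (𝕜 := ℝ))
    rwa [Finset.sum_const_zero, add_zero] at this
  set g : ℕ → V →L[ℂ] ℂ := fun k => (((ε k * ‖L k‖)⁻¹ : ℝ) : ℂ) • L k with hg
  have hgn : ∀ k, ‖g k‖ = (ε k)⁻¹ := by
    intro k
    have := hpos k
    have := hε0 k
    rw [hg, norm_smul, Complex.norm_real, Real.norm_of_nonneg (by positivity)]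
    field_simp
  obtain ⟨C', hC'⟩ := banach_steinhaus (g := g) fun v => by
    obtain ⟨m, hm⟩ := hfg v
    have h1 : ∀ᶠ k in atTop, ‖g k v‖ ≤ |m| := by
      filter_upwards [hm] with k hk
      have h2 := hpos k
      have h3 := hε0 k
      have h4 : ∑ i ∈ e, ‖l k i‖ ≤ ε k * ‖L k‖ := by
        rw [hε, add_mul, Finset.sum_mul]
        simp only [div_mul_cancel₀ _ h2.ne']
        have : 0 ≤ 1 / ((k : ℝ) + 1) * ‖L k‖ := by positivity
        linarith
      have h5 : 0 ≤ ∑ i ∈ e, ‖l k i‖ := Finset.sum_nonneg fun i _ => norm_nonneg _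
      have h6 : ‖l k v‖ ≤ |m| * (ε k * ‖L k‖) :=
        hk.trans (mul_le_mul (le_abs_self m) h4 h5 (abs_nonneg m))
      simp only [hg, smul_apply, norm_smul, Complex.norm_real, hLl]
      rw [Real.norm_of_nonneg (by positivity), inv_mul_le_iff₀ (by positivity)]
      linarith
    have h2 : IsBoundedUnder (· ≤ ·) atTop fun k => ‖g k v‖ := ⟨|m|, h1⟩
    rw [← Nat.cofinite_eq_atTop] at h2
    obtain ⟨B, hB⟩ := h2.bddAbove_range_of_cofinite
    exact ⟨B, fun i => hB ⟨i, rfl⟩⟩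
  have h1 : Tendsto (fun k => (ε k)⁻¹) atTop atTop :=
    tendsto_inv_nhdsGT_zero.comp (tendsto_nhdsWithin_iff.2 ⟨hεt, Eventually.of_forall hε0⟩)
  obtain ⟨k, hk⟩ := (h1.eventually_gt_atTop C').exists
  exact absurd (hgn k ▸ hC' k) hk.not_ge

open Crest.Agent.R275.Loc2879 in
/-- a family of holomorphic germs is dominated by finitely many of its members -/
theorem exists_fin_bound {F : Type*} [NormedAddCommGroup F] [NormedSpace ℂ F]
    [FiniteDimensional ℂ F] {z : F} {ι : Type*} (f : ι → F → ℂ) (hf : ∀ i, AnalyticAt ℂ (f i) z) :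
    ∃ e : Finset ι, ∀ i, ∃ m : ℝ, ∀ᶠ x in 𝓝 z, ‖f i x‖ ≤ m * ∑ j ∈ e, ‖f j x‖ := by
  classical
  set g : ι → OO z := fun i => gm (f i) (hf i) with hg
  have hfg : (Submodule.span (OO z) (range g)).FG := IsNoetherian.noetherian _
  obtain ⟨s, hs, hspan⟩ := (Submodule.fg_span_iff_fg_span_finset_subset _).1 hfg
  obtain ⟨e, rfl⟩ : ∃ e : Finset ι, s = e.image g := by
    obtain ⟨e, -, he⟩ := Finset.subset_set_image_iff.1 (show (s : Set (OO z)) ⊆ g '' univ by
      rwa [image_univ])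
    exact ⟨e, he.symm⟩
  refine ⟨e, fun i => ?_⟩
  have key : ∀ a ∈ Submodule.span (OO z) (↑(e.image g) : Set (OO z)),
      ∀ (u : F → ℂ) (hu : AnalyticAt ℂ u z), gm u hu = a →
        ∃ m : ℝ, 0 ≤ m ∧ ∀ᶠ x in 𝓝 z, ‖u x‖ ≤ m * ∑ j ∈ e, ‖f j x‖ := by
    intro a ha
    induction ha using Submodule.span_induction with
    | mem a ha =>
      intro u hu h
      obtain ⟨j, hj, rfl⟩ := Finset.mem_image.1 (Finset.mem_coe.1 ha)
      refine ⟨1, zero_le_one, ?_⟩
      filter_upwards [gm_eq_gm.1 h] with x hx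
      rw [hx, one_mul]
      exact Finset.single_le_sum (f := fun j => ‖f j x‖) (fun _ _ => norm_nonneg _) hj
    | zero =>
      intro u hu h
      refine ⟨0, le_rfl, ?_⟩
      filter_upwards [gm_eq_zero.1 h] with x hx
      simp [hx]
    | add a b _ _ iha ihb =>
      intro u hu h
      obtain ⟨u1, hu1, rfl⟩ := exists_gm a
      obtain ⟨u2, hu2, rfl⟩ := exists_gm b
      obtain ⟨m1, h1, h1'⟩ := iha u1 hu1 rfl
      obtain ⟨m2, h2, h2'⟩ := ihb u2 hu2 rfl
      rw [gm_add] at h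
      refine ⟨m1 + m2, by positivity, ?_⟩
      filter_upwards [gm_eq_gm.1 h, h1', h2'] with x hx hx1 hx2
      rw [hx, add_mul]
      exact (norm_add_le _ _).trans (add_le_add hx1 hx2)
    | smul c a _ iha =>
      intro u hu h
      obtain ⟨u1, hu1, rfl⟩ := exists_gm c
      obtain ⟨u2, hu2, rfl⟩ := exists_gm a
      obtain ⟨m2, h2, h2'⟩ := iha u2 hu2 rfl
      rw [smul_eq_mul, gm_mul] at h
      refine ⟨(‖u1 z‖ + 1) * m2, by positivity, ?_⟩
      have h3 : ∀ᶠ x in 𝓝 z, ‖u1 x‖ < ‖u1 z‖ + 1 :=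
        hu1.continuousAt.norm.eventually (gt_mem_nhds (lt_add_one _))
      filter_upwards [gm_eq_gm.1 h, h2', h3] with x hx hx1 hx2
      rw [hx, Pi.mul_apply, norm_mul, mul_assoc]
      exact mul_le_mul hx2.le hx1 (norm_nonneg _) (by positivity)
  obtain ⟨m, -, hm⟩ := key (g i) (hspan ▸ Submodule.subset_span ⟨i, rfl⟩) (f i) (hf i) rfl
  exact ⟨m, hm⟩

end Crest.Agent.X261.Wand.Ubp
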