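import Crest.Agent.X261.Wand.Step
import Crest.Agent.X261.Wand.Ubp

/-!
# Row 261, package WAND (helper57), file `Core`

* `bombieri` : if `e^{-φ}` is integrable near `x`, some holomorphic `h` on the polydisc with
  `∫ |h|² e^{-φ} < ∞` has `h x = 1`;
* `wand_apx` : the wandering lemma on a polydisc, for weights with smooth approximants.
-/

set_option autoImplicit false

open Set Filter Topology MeasureTheory Metric
open scoped ENNReal

noncomputable section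

namespace Crest.Agent.X261.Wand.Core

open Crest.Agent.R271 Crest.Agent.R271.Ho51 Crest.Agent.R271.Ball399
open Crest.Agent.X261.Wand.Solve Crest.Agent.X261.Wand.Lim Crest.Agent.X261.Wand.Step

variable {n : ℕ} {r : ℝ}

theorem sp_add {f g : (Fin n → ℂ) → ℝ} (hf : SP r f) (hg : SP r g) : SP r fun z => f z + g z := by
  refine ⟨hf.sm.add hg.sm, fun z hz w => ?_⟩
  have h := W792.lev_add (Sm_restrict hf.sm) (Sm_restrict hg.sm) ⟨z, hz⟩ w
  rw [lev_restrict (fun z => f z + g z), lev_restrict, lev_restrict] at h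
  rw [h]
  exact add_nonneg (hf.lev z hz w) (hg.lev z hz w)

theorem sp_const_mul {f : (Fin n → ℂ) → ℝ} (hf : SP r f) {c : ℝ} (hc : 0 ≤ c) :
    SP r fun z => c * f z := by
  refine ⟨contDiffOn_const.mul hf.sm, fun z hz w => ?_⟩
  have h := W792.lev_const_mul (Sm_restrict hf.sm) c ⟨z, hz⟩ w
  rw [lev_restrict (fun z => c * f z), lev_restrict] at h
  rw [h]
  exact mul_nonneg hc (hf.lev z hz w)

theorem sp_const (c : ℝ) : SP r fun _ : Fin n → ℂ => c :=
  ⟨contDiffOn_const, fun z hz w => by simp [lev0]⟩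

theorem sp_log (x : Fin n → ℂ) {ε : ℝ} (hε : 0 < ε) :
    SP r fun z => Real.log (nsq (z - x) + ε) := by
  have h1 : ContDiff ℝ (⊤ : ℕ∞) fun z : Fin n → ℂ => nsq (z - x) + ε := by
    refine ContDiff.add (ContDiff.sum fun j _ => ?_) contDiff_const
    exact ContDiff.norm_sq ℂ ((contDiff_apply ℝ ℂ j).sub contDiff_const)
  refine ⟨(h1.log fun z => (add_pos_of_nonneg_of_pos (nsq_nonneg _) hε).ne').contDiffOn,
    fun z hz w => ?_⟩
  rw [← lev_restrict (fun z => Real.log (nsq (z - x) + ε)) ⟨z, hz⟩]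
  refine W792.lev_lg_nonneg (f := fun j (y : Bl n r) => y.val j - x j) (fun j => ?_) hε.le
    (fun y => add_pos_of_nonneg_of_pos (W792.nS_nonneg _ _) hε) _ w
  refine ⟨(hol_coord j).sm.sub (Sm.const _), fun y v => ?_⟩
  rw [D_sub (hol_coord j).sm (Sm.const _), D_const, sub_zero]
  exact (hol_coord j).cl y v

theorem sq_le_nsq (v : Fin n → ℂ) : ‖v‖ ^ 2 ≤ nsq v := by
  have h : ‖v‖ ≤ Real.sqrt (nsq v) := by
    refine (pi_norm_le_iff_of_nonneg (Real.sqrt_nonneg _)).2 fun j => Real.le_sqrt_of_sq_le ?_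
    exact Finset.single_le_sum (f := fun j => ‖v j‖ ^ 2) (fun _ _ => by positivity)
      (Finset.mem_univ j)
  calc ‖v‖ ^ 2 ≤ Real.sqrt (nsq v) ^ 2 := by gcongr
    _ = nsq v := Real.sq_sqrt (nsq_nonneg v)

theorem nsq_le (v : Fin n → ℂ) : nsq v ≤ n * ‖v‖ ^ 2 := by
  have := Finset.sum_le_card_nsmul Finset.univ (fun j => ‖v j‖ ^ 2) (‖v‖ ^ 2) fun j _ =>
    pow_le_pow_left₀ (norm_nonneg _) (norm_le_pi_norm v j) 2
  simpa [nsq] using this

/-- **Bombieri's lemma on a polydisc** -/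
theorem bombieri (hn : 0 < n) (hr : 0 < r) {φ : (Fin n → ℂ) → EReal} {f : ℕ → (Fin n → ℂ) → ℝ}
    (hf : Apx r φ f) {x : Fin n → ℂ} (hx : x ∈ ball (0 : Fin n → ℂ) r) {V : Set (Fin n → ℂ)}
    (hV : V ∈ 𝓝 x) (hfin : ∫⁻ z in V, EReal.exp (-φ z) < ∞) :
    ∃ h : (Fin n → ℂ) → ℂ, DifferentiableOn ℂ h (ball 0 r) ∧
      ∫⁻ z, ‖h z‖ₑ ^ 2 * EReal.exp (-φ z) ∂vb n r < ∞ ∧ h x = 1 := by
  obtain ⟨δ, hδ, hδ'⟩ := Metric.mem_nhds_iff.1 hV
  have : Nonempty (Fin n) := ⟨⟨0, hn⟩⟩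
  have hn' : (0 : ℝ) < n := by exact_mod_cast hn
  set A : ℝ := 2 - 2 * n * Real.log (δ ^ 2) with hA
  set L : (Fin n → ℂ) → ℝ := fun y => 2 * n * Real.log (nsq (y - x)) + A with hL
  set Lj : ℕ → (Fin n → ℂ) → ℝ := fun j y =>
    2 * n * Real.log (nsq (y - x) + 1 / ((j : ℝ) + 1)) + A with hLj
  have hε : ∀ j : ℕ, (0 : ℝ) < 1 / ((j : ℝ) + 1) := fun j => by positivity
  have hε1 : ∀ j : ℕ, 1 / ((j : ℝ) + 1) ≤ 1 := fun j =>
    (div_le_one (by positivity)).2 (by linarith [(Nat.cast_nonneg j : (0 : ℝ) ≤ j)])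
  have hne : ∀ᵐ y ∂vb n r, 0 < ‖y - x‖ := by
    filter_upwards [ae_restrict_of_ae (compl_mem_ae_iff.2 (measure_singleton x))] with y hy
    exact norm_pos_iff.2 (sub_ne_zero.2 hy)
  have hnb : ∀ y ∈ ball (0 : Fin n → ℂ) r, nsq (y - x) ≤ n * (2 * r) ^ 2 := by
    intro y hy
    refine (nsq_le _).trans ?_
    have h1 := norm_sub_le y x
    rw [mem_ball_zero_iff] at hy hx
    gcongr
    linarith
  have hoff : ∀ y, y ∉ ball x δ → ∀ s, nsq (y - x) ≤ s → 2 ≤ 2 * n * Real.log s + A := by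
    intro y hy s hs
    rw [mem_ball, dist_eq_norm, not_lt] at hy
    have h1 : δ ^ 2 ≤ s := (pow_le_pow_left₀ hδ.le hy 2).trans ((sq_le_nsq _).trans hs)
    have h2 := Real.log_le_log (by positivity) h1
    rw [hA]
    nlinarith
  obtain ⟨M, hM⟩ := hf.bdd
  have hg : Apx r (fun y => φ y + (L y : ℝ)) fun j y => f j y + Lj j y := by
    refine ⟨fun j => sp_add (hf.sp j) (sp_add (sp_const_mul (sp_log x (hε j))
      (by positivity)) (sp_const A)), ⟨M + (2 * n * (n * (2 * r) ^ 2 + 1) + A), fun j y hy => ?_⟩,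
      ?_, ?_⟩
    · have h1 := Real.log_le_self (add_nonneg (nsq_nonneg (y - x)) (hε j).le)
      have h2 := hnb y hy
      have h3 := hε1 j
      have h4 := hM j y hy
      simp only [hLj]
      nlinarith
    · filter_upwards [hf.le, hne] with y h1 h2 j
      rw [EReal.coe_add]
      refine add_le_add (h1 j) (EReal.coe_le_coe_iff.2 ?_)
      have h3 : 0 < nsq (y - x) := (pow_pos h2 2).trans_le (sq_le_nsq _)
      have h4 := Real.log_le_log h3 (le_add_of_nonneg_right (hε j).le)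
      simp only [hLj]
      nlinarith
    · filter_upwards [hf.lim, hne] with y h1 h2 t ht
      have h3 : 0 < nsq (y - x) := (pow_pos h2 2).trans_le (sq_le_nsq _)
      have h4 : φ y < ((t - L y : ℝ) : EReal) := by
        rw [EReal.coe_sub]
        exact EReal.lt_sub_iff_add_lt (Or.inl (EReal.coe_ne_bot _))
          (Or.inl (EReal.coe_ne_top _)) |>.2 ht
      obtain ⟨s, h5, h6⟩ := EReal.lt_iff_exists_real_btwn.1 h4
      have h7 : Tendsto (fun j => Lj j y) atTop (𝓝 (L y)) := by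
        have := (tendsto_one_div_add_atTop_nhds_zero_nat (𝕜 := ℝ)).const_add (nsq (y - x))
        rw [add_zero] at this
        exact ((this.log h3.ne').const_mul _).add_const A
      have h8 : L y < t - s := by
        have := EReal.coe_lt_coe_iff.1 h6
        linarith
      filter_upwards [h1 s h5, h7.eventually (gt_mem_nhds h8)] with j h9 h10
      linarith
  obtain ⟨Q, hQ, hstep⟩ := step hn (2 * n * (n * (2 * r) ^ 2) + A)
  have hfin' : ∫⁻ z in ball x δ, ‖(1 : ℂ)‖ₑ ^ 2 * EReal.exp (-φ z) ∂vb n r < ∞ := by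
    simp only [enorm_one, one_pow, one_mul]
    exact ((lintegral_mono' (Measure.restrict_mono hδ' Measure.restrict_le_self)
      le_rfl)).trans_lt hfin
  obtain ⟨h, hh, hb, hval⟩ := hstep hr hf hg (S := ball x δ) (T := ball x δ) (h := fun _ => 1)
    (by
      filter_upwards [ae_restrict_mem measurableSet_ball] with y hy
      refine add_le_add le_rfl (EReal.coe_le_coe_iff.2 ?_)
      have h1 := Real.log_le_self (nsq_nonneg (y - x))
      have h2 := hnb y hy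
      simp only [hL]
      nlinarith)
    measurableSet_ball.nullMeasurableSet
    (fun j y _ h1 => by
      by_contra h2
      have := hoff y h2 _ (le_add_of_nonneg_right (hε j).le)
      simp only [hLj] at h1
      linarith)
    (Eventually.of_forall fun y hy =>
      add_le_add le_rfl (EReal.coe_le_coe_iff.2 (hoff y hy _ le_rfl)))
    (differentiableOn_const _) hfin'
  refine ⟨h, hh, hb.trans_lt (ENNReal.mul_lt_top hQ.lt_top (by rwa [inter_self])),
    hval x hx (ball_mem_nhds x hδ) ⟨M + 2 * n * Real.log n + A, univ, univ_mem, ?_⟩⟩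
  filter_upwards [hf.le, hne, ae_restrict_mem measurableSet_ball] with y h1 h2 hy _
  refine (add_le_add ((h1 0).trans (EReal.coe_le_coe_iff.2 (hM 0 y hy))) le_rfl).trans ?_
  rw [← EReal.coe_add, EReal.coe_le_coe_iff]
  have h3 : 0 < nsq (y - x) := (pow_pos h2 2).trans_le (sq_le_nsq _)
  have h4 := Real.log_le_log h3 (nsq_le (y - x))
  rw [Real.log_mul hn'.ne' (by positivity), Real.log_pow] at h4
  simp only [hL]
  push_cast at h4
  nlinarith

/-- the weighted Bergman space -/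
def BS (r : ℝ) (w : (Fin n → ℂ) → ℝ≥0∞) : Submodule ℂ ((Fin n → ℂ) → ℂ) where
  carrier := {h | DifferentiableOn ℂ h (ball 0 r) ∧ eLpNorm h 2 ((vb n r).withDensity w) < ∞}
  add_mem' := fun {a b} ha hb => ⟨ha.1.add hb.1, (eLpNorm_add_le
    ((aem ha.1.continuousOn).aestronglyMeasurable.mono_ac (withDensity_absolutelyContinuous _ _))
    ((aem hb.1.continuousOn).aestronglyMeasurable.mono_ac (withDensity_absolutelyContinuous _ _))
    one_le_two).trans_lt (ENNReal.add_lt_top.2 ⟨ha.2, hb.2⟩)⟩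
  zero_mem' := ⟨differentiableOn_const _, by simp⟩
  smul_mem' := fun c a ha => ⟨ha.1.const_smul c, by
    rw [eLpNorm_const_smul]; exact ENNReal.mul_lt_top enorm_lt_top ha.2⟩

/-- its seminorm -/
def pn (r : ℝ) (w : (Fin n → ℂ) → ℝ≥0∞) : Seminorm ℂ (BS r w) :=
  Seminorm.of (fun h => (eLpNorm h.val 2 ((vb n r).withDensity w)).toReal)
    (fun a b => by
      rw [← ENNReal.toReal_add a.2.2.ne b.2.2.ne]
      exact ENNReal.toReal_mono (ENNReal.add_ne_top.2 ⟨a.2.2.ne, b.2.2.ne⟩) (eLpNorm_add_le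
        ((aem a.2.1.continuousOn).aestronglyMeasurable.mono_ac
          (withDensity_absolutelyContinuous _ _))
        ((aem b.2.1.continuousOn).aestronglyMeasurable.mono_ac
          (withDensity_absolutelyContinuous _ _)) one_le_two))
    (fun c a => by
      rw [Submodule.coe_smul, eLpNorm_const_smul, ENNReal.toReal_mul, toReal_enorm])

theorem eLpNorm_sq {w : (Fin n → ℂ) → ℝ≥0∞} (hw : AEMeasurable w (vb n r))
    {h : (Fin n → ℂ) → ℂ} (hh : DifferentiableOn ℂ h (ball 0 r)) :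
    eLpNorm h 2 ((vb n r).withDensity w) ^ 2 = ∫⁻ z, ‖h z‖ₑ ^ 2 * w z ∂vb n r := by
  have h1 := eLpNorm_nnreal_pow_eq_lintegral (μ := (vb n r).withDensity w) (f := h) (p := 2)
    two_ne_zero
  simp only [ENNReal.coe_ofNat, NNReal.coe_ofNat, ENNReal.rpow_ofNat] at h1
  rw [h1, lintegral_withDensity_eq_lintegral_mul₀ hw ((aem hh.continuousOn).enorm.pow_const 2)]
  exact lintegral_congr fun z => mul_comm _ _

theorem mem_BS {w : (Fin n → ℂ) → ℝ≥0∞} (hw : AEMeasurable w (vb n r))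
    {h : (Fin n → ℂ) → ℂ} (hh : DifferentiableOn ℂ h (ball 0 r))
    (hf : ∫⁻ z, ‖h z‖ₑ ^ 2 * w z ∂vb n r < ∞) : h ∈ BS r w := by
  refine ⟨hh, lt_top_iff_ne_top.2 fun h0 => ?_⟩
  rw [← eLpNorm_sq hw hh, h0] at hf
  simp at hf

theorem ofReal_pn_sq {w : (Fin n → ℂ) → ℝ≥0∞} (hw : AEMeasurable w (vb n r)) (h : BS r w) :
    ENNReal.ofReal (pn r w h ^ 2) = ∫⁻ z, ‖h.val z‖ₑ ^ 2 * w z ∂vb n r := by
  rw [← eLpNorm_sq hw h.2.1, ENNReal.ofReal_pow (apply_nonneg _ _)]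
  congr 1
  exact ENNReal.ofReal_toReal h.2.2.ne

theorem pn_le {w : (Fin n → ℂ) → ℝ≥0∞} (hw : AEMeasurable w (vb n r)) {h : BS r w} {ε : ℝ}
    (hε : 0 ≤ ε) :
    pn r w h ≤ ε ↔ ∫⁻ z, ‖h.val z‖ₑ ^ 2 * w z ∂vb n r ≤ ENNReal.ofReal (ε ^ 2) := by
  rw [← ofReal_pn_sq hw, ENNReal.ofReal_le_ofReal_iff (by positivity),
    pow_le_pow_iff_left₀ (apply_nonneg _ _) hε two_ne_zero]

theorem lint_le {w : (Fin n → ℂ) → ℝ≥0∞} {M : ℝ} (hM : ∀ᵐ z ∂vb n r, ex M ≤ w z)
    (h : (Fin n → ℂ) → ℂ) : ∫⁻ z in ball (0 : Fin n → ℂ) r, ‖h z‖ₑ ^ 2 ≤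
      ex (-M) * ∫⁻ z, ‖h z‖ₑ ^ 2 * w z ∂vb n r := by
  rw [← lintegral_const_mul' _ _ (ex_ne_top _)]
  refine lintegral_mono_ae (hM.mono fun z hz => ?_)
  rw [mul_left_comm]
  refine le_trans (le_of_eq ?_) (mul_le_mul_right (mul_le_mul_right hz _) _)
  rw [← ex_add, neg_add_cancel, ex_zero, mul_one]

theorem BS_complete {w : (Fin n → ℂ) → ℝ≥0∞} (hw : AEMeasurable w (vb n r)) {M : ℝ}
    (hM : ∀ᵐ z ∂vb n r, ex M ≤ w z) (u : ℕ → BS r w)
    (hu : ∀ ε > 0, ∃ N, ∀ m ≥ N, ∀ k ≥ N, pn r w (u m - u k) < ε) :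
    ∃ v, Tendsto (fun m => pn r w (u m - v)) atTop (𝓝 0) := by
  obtain ⟨N0, hN0⟩ := hu 1 one_pos
  obtain ⟨J, F, hJ, hF, hlim⟩ := seq_montel (F := fun m => (u m).val) (fun m => (u m).2.1)
    (K := ex (-M) * ENNReal.ofReal ((pn r w (u N0) + 1) ^ 2))
    (ENNReal.mul_ne_top (ex_ne_top _) ENNReal.ofReal_ne_top) (by
      filter_upwards [eventually_ge_atTop N0] with m hm
      refine (lint_le hM _).trans (mul_le_mul_right ((pn_le hw (by positivity)).1 ?_) _)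
      have h1 := map_add_le_add (pn r w) (u N0) (u m - u N0)
      rw [add_sub_cancel] at h1
      linarith [hN0 m hm N0 le_rfl])
  have key : ∀ ε > 0, ∃ N, ∀ m ≥ N,
      ∫⁻ z, ‖(u m).val z - F z‖ₑ ^ 2 * w z ∂vb n r ≤ ENNReal.ofReal (ε ^ 2) := by
    intro ε hε
    obtain ⟨N, hN⟩ := hu ε hε
    refine ⟨N, fun m hm => fatou (u := fun k y => (u m).val y - (u (J k)).val y) (W := fun _ => w)
      (fun k => aem ((u m).2.1.continuousOn.sub (u (J k)).2.1.continuousOn)) (fun _ => hw) ?_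
      (Eventually.of_forall fun y c hc => Eventually.of_forall fun _ => hc.le) fun L' hL' => ?_⟩
    · filter_upwards [ae_restrict_mem measurableSet_ball] with y hy
      exact (hlim y hy).const_sub _
    · filter_upwards [hJ.eventually (eventually_ge_atTop N)] with k hk
      have := (pn_le hw hε.le).1 (hN m hm _ hk).le
      simp only [Submodule.coe_sub, Pi.sub_apply] at this
      exact this.trans hL'.le
  obtain ⟨N, hN⟩ := key 1 one_pos
  have h1 : (u N).val - F ∈ BS r w :=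
    mem_BS hw ((u N).2.1.sub hF) ((hN N le_rfl).trans_lt ENNReal.ofReal_lt_top)
  have h2 : F ∈ BS r w := by simpa using (BS r w).sub_mem (u N).2 h1
  refine ⟨⟨F, h2⟩, tendsto_order.2 ⟨fun a ha => Eventually.of_forall fun m =>
    ha.trans_le (apply_nonneg _ _), fun a ha => ?_⟩⟩
  obtain ⟨N', hN'⟩ := key (a / 2) (by positivity)
  filter_upwards [eventually_ge_atTop N'] with m hm
  refine lt_of_le_of_lt ((pn_le hw (by positivity)).2 ?_) (half_lt_self ha)
  simp only [Submodule.coe_sub, Pi.sub_apply]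
  exact hN' m hm

theorem BS_eval {w : (Fin n → ℂ) → ℝ≥0∞} (hw : AEMeasurable w (vb n r)) {M : ℝ}
    (hM : ∀ᵐ z ∂vb n r, ex M ≤ w z) {x : Fin n → ℂ} (hx : x ∈ ball (0 : Fin n → ℂ) r) :
    ∃ C : ℝ, ∀ h : BS r w, ‖h.val x‖ ≤ C * pn r w h := by
  obtain ⟨δ, hδ, hsub⟩ := Metric.nhds_basis_closedBall.mem_iff.1 (isOpen_ball.mem_nhds hx)
  set v := volume (closedBall x δ) with hv
  have hv0 : v ≠ 0 := (measure_closedBall_pos volume _ hδ).ne'
  have hvt : v ≠ ⊤ := measure_closedBall_lt_top.ne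
  have hc : v⁻¹ * ex (-M) ≠ ⊤ := ENNReal.mul_ne_top (ENNReal.inv_ne_top.2 hv0) (ex_ne_top _)
  refine ⟨Real.sqrt (v⁻¹ * ex (-M)).toReal, fun h => ?_⟩
  have h1 := ((Montel297.volume_mul_enorm_sq_le isOpen_ball h.2.1 hsub).trans
    (lintegral_mono_set hsub)).trans (lint_le hM _)
  have h2 := mul_le_mul_right h1 v⁻¹
  rw [← mul_assoc, ENNReal.inv_mul_cancel hv0 hvt, one_mul, ← mul_assoc, ← ofReal_pn_sq hw,
    enorm_sq_eq, ← ENNReal.ofReal_toReal hc, ← ENNReal.ofReal_mul ENNReal.toReal_nonneg,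
    ENNReal.ofReal_le_ofReal_iff (by positivity)] at h2
  refine (pow_le_pow_iff_left₀ (norm_nonneg _) (by positivity) two_ne_zero).1 ?_
  rwa [mul_pow, Real.sq_sqrt ENNReal.toReal_nonneg]

/-- **the wandering lemma on a polydisc** -/
theorem wand_apx (hn : 0 < n) (hr : 0 < r) {φ : (Fin n → ℂ) → EReal}
    {f : ℕ → (Fin n → ℂ) → ℝ} (hf : Apx r φ f) {G : ℕ → (Fin n → ℂ) → EReal}
    {g : ℕ → ℕ → (Fin n → ℂ) → ℝ} (hg : ∀ k, Apx r (G k) (g k)) {x : ℕ → Fin n → ℂ}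
    (hxB : ∀ k, x k ∈ ball (0 : Fin n → ℂ) r) {z : Fin n → ℂ} (hz : z ∈ ball (0 : Fin n → ℂ) r)
    (hx : Tendsto x atTop (𝓝 z)) {C : ℝ} (h1 : ∀ k, ∀ᵐ y ∂vb n r, G k y ≤ φ y + C)
    {T : ℕ → Set (Fin n → ℂ)} (hT : ∀ k, NullMeasurableSet (T k) (vb n r))
    (h2 : ∀ k, ∀ᵐ y ∂vb n r, y ∉ T k → φ y + (2 : ℝ) ≤ G k y)
    (h3 : ∀ᵐ y ∂vb n r, ∀ᶠ k in atTop, y ∉ T k)
    (h4 : ∀ k, ∃ C' : ℝ, ∃ U ∈ 𝓝 (x k), ∀ᵐ y ∂vb n r, y ∈ U →
      G k y ≤ ((4 * n * Real.log ‖y - x k‖ + C' : ℝ) : EReal))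
    (h5 : ∀ k, ∃ V ∈ 𝓝 (x k), ∫⁻ y in V, EReal.exp (-φ y) < ∞) : False := by
  set w : (Fin n → ℂ) → ℝ≥0∞ := fun y => EReal.exp (-φ y) with hw
  have hwm : AEMeasurable w (vb n r) := hf.aem
  obtain ⟨M, hM⟩ := hf.bdd
  have hM' : ∀ᵐ y ∂vb n r, ex M ≤ w y := by
    filter_upwards [hf.le, ae_restrict_mem measurableSet_ball] with y hy1 hy2
    exact ex_le_wt ((hy1 0).trans (EReal.coe_le_coe_iff.2 (hM 0 y hy2)))
  obtain ⟨e, he⟩ := Ubp.exists_fin_bound (z := z) (fun h : BS r w => h.val) fun h =>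
    R266.SCV.analyticOnNhd_of_differentiableOn isOpen_ball h.2.1 z hz
  obtain ⟨Q, hQ, hstep⟩ := step hn C
  refine Ubp.ubp (pn r w) (BS_complete hwm hM')
    (fun k => (LinearMap.proj (x k)).comp (BS r w).subtype) (fun k => BS_eval hwm hM' (hxB k))
    (fun k => ?_) (fun v ε hε => ?_) e fun v => (he v).imp fun m hm => hx.eventually hm
  · obtain ⟨V, hV, hfin⟩ := h5 k
    obtain ⟨h, hh, hb, h0⟩ := bombieri hn hr hf (hxB k) hV hfin
    exact ⟨⟨h, mem_BS hwm hh hb⟩, by simp [h0]⟩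
  · have hfin : ∫⁻ y, ‖v.val y‖ₑ ^ 2 * w y ∂vb n r < ∞ := by
      rw [← ofReal_pn_sq hwm]; exact ENNReal.ofReal_lt_top
    have hpm : AEMeasurable (fun y => ‖v.val y‖ₑ ^ 2 * w y) (vb n r) :=
      ((aem v.2.1.continuousOn).enorm.pow_const 2).mul hwm
    have t1 := tendsto_lintegral_of_dominated_convergence' (f := fun _ => 0) _
      (fun k => hpm.indicator₀ (hT k))
      (fun k => Eventually.of_forall fun y => indicator_le_self _ _ y) hfin.ne
      (h3.mono fun y hy => tendsto_const_nhds.congr'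
        (hy.mono fun k hk => (indicator_of_notMem hk _).symm))
    have t2 := ENNReal.Tendsto.const_mul (a := Q) t1 (Or.inr hQ)
    rw [lintegral_zero, mul_zero] at t2
    filter_upwards [t2.eventually (gt_mem_nhds (ENNReal.ofReal_pos.2 (pow_pos hε 2)))] with k hk
    obtain ⟨V, hV, hb, hval⟩ := hstep hr hf (hg k) (h1 k) (S := univ) (hT k)
      (fun _ _ _ _ => mem_univ _) (h2 k) v.2.1 (by rwa [Measure.restrict_univ])
    rw [univ_inter, ← lintegral_indicator₀ (hT k)] at hb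
    have hb' := hb.trans hk.le
    refine ⟨v - ⟨V, mem_BS hwm hV (hb'.trans_lt ENNReal.ofReal_lt_top)⟩, ?_, ?_⟩
    · simp [hval _ (hxB k) univ_mem (h4 k)]
    · rw [sub_sub_cancel]
      exact (pn_le hwm hε.le).2 hb'

end Crest.Agent.X261.Wand.Core
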