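import Crest.Agent.R271.Montel_297
import Crest.Agent.R271.L0_934

/-!
# Row 261, package WAND (helper57), file `Lim`

Sequential Montel theorem from an `L²` bound, Fatou's lemma with moving weights, and the
vanishing of a continuous function that is square integrable against a pole of order `2n`.
-/

set_option autoImplicit false

open Set Filter Topology MeasureTheory Metric
open scoped ENNReal

noncomputable section

namespace Crest.Agent.X261.Wand.Lim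

open Crest.Agent.R271

variable {n : ℕ}

/-- sequential Montel theorem on a polydisc -/
theorem seq_montel {r : ℝ} {F : ℕ → (Fin n → ℂ) → ℂ}
    (hF : ∀ j, DifferentiableOn ℂ (F j) (ball 0 r)) {K : ℝ≥0∞} (hK : K ≠ ⊤)
    (hb : ∀ᶠ j in atTop, ∫⁻ y in ball (0 : Fin n → ℂ) r, ‖F j y‖ₑ ^ 2 ≤ K) :
    ∃ (J : ℕ → ℕ) (F0 : (Fin n → ℂ) → ℂ), Tendsto J atTop atTop ∧
      DifferentiableOn ℂ F0 (ball 0 r) ∧
      ∀ y ∈ ball (0 : Fin n → ℂ) r, Tendsto (fun m => F (J m) y) atTop (𝓝 (F0 y)) := by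
  have hle : (hyperfilter ℕ : Filter ℕ) ≤ atTop := by
    rw [← Nat.cofinite_eq_atTop]
    exact hyperfilter_le_cofinite
  obtain ⟨F0, hF0, hlim⟩ := Montel297.montel_L2 (ball 0 r) isOpen_ball F hF K hK
    (hyperfilter ℕ) (hle hb)
  have hsub : ∀ m : ℕ, ∃ j : ℕ, m ≤ j ∧ ∀ y ∈ closedBall (0 : Fin n → ℂ) (r - 1 / ((m : ℝ) + 1)),
      dist (F0 y) (F j y) < 1 / ((m : ℝ) + 1) := by
    intro m
    have h0 : (0 : ℝ) < 1 / ((m : ℝ) + 1) := by positivity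
    have h1 : TendstoUniformlyOn F F0 (hyperfilter ℕ : Filter ℕ)
        (closedBall 0 (r - 1 / ((m : ℝ) + 1))) :=
      (tendstoLocallyUniformlyOn_iff_tendstoUniformlyOn_of_compact (isCompact_closedBall _ _)).1
        (hlim.mono (closedBall_subset_ball (by linarith)))
    have h2 := (Metric.tendstoUniformlyOn_iff.1 h1) _ h0
    have h3 : ∀ᶠ j in (hyperfilter ℕ : Filter ℕ), m ≤ j := hle (eventually_ge_atTop m)
    obtain ⟨j, hj1, hj2⟩ := (h3.and h2).exists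
    exact ⟨j, hj1, hj2⟩
  choose J hJ1 hJ2 using hsub
  refine ⟨J, F0, tendsto_atTop_mono hJ1 tendsto_id, hF0, fun y hy => ?_⟩
  rw [tendsto_iff_dist_tendsto_zero]
  refine squeeze_zero' (Eventually.of_forall fun _ => dist_nonneg) ?_
    tendsto_one_div_add_atTop_nhds_zero_nat
  have hy' : 0 < r - ‖y‖ := by rw [mem_ball_zero_iff] at hy; linarith
  filter_upwards [(tendsto_one_div_add_atTop_nhds_zero_nat (𝕜 := ℝ)).eventually
    (gt_mem_nhds hy')] with m hm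
  rw [dist_comm]
  exact (hJ2 m y (mem_closedBall_zero_iff.2 (by linarith))).le

theorem mul_le_liminf {a W : ℕ → ℝ≥0∞} {a0 W0 : ℝ≥0∞} (ha : Tendsto a atTop (𝓝 a0))
    (hW : ∀ c < W0, ∀ᶠ m in atTop, c ≤ W m) : a0 * W0 ≤ liminf (fun m => a m * W m) atTop := by
  refine ENNReal.mul_le_of_forall_lt fun b hb c hc => ?_
  refine le_liminf_of_le (by isBoundedDefault) ?_
  filter_upwards [ha.eventually (lt_mem_nhds hb), hW c hc] with m h1 h2
  exact mul_le_mul' h1.le h2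

/-- Fatou's lemma with moving weights -/
theorem fatou {α : Type*} [MeasurableSpace α] {ν : Measure α} {u : ℕ → α → ℂ} {u0 : α → ℂ}
    {W : ℕ → α → ℝ≥0∞} {W0 : α → ℝ≥0∞} (hu : ∀ m, AEMeasurable (u m) ν)
    (hW : ∀ m, AEMeasurable (W m) ν)
    (h1 : ∀ᵐ y ∂ν, Tendsto (fun m => u m y) atTop (𝓝 (u0 y)))
    (h2 : ∀ᵐ y ∂ν, ∀ c < W0 y, ∀ᶠ m in atTop, c ≤ W m y) {L : ℝ≥0∞}
    (hb : ∀ L', L < L' → ∀ᶠ m in atTop, ∫⁻ y, ‖u m y‖ₑ ^ 2 * W m y ∂ν ≤ L') :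
    ∫⁻ y, ‖u0 y‖ₑ ^ 2 * W0 y ∂ν ≤ L := by
  refine le_of_forall_gt_imp_ge_of_dense fun L' hL' => ?_
  calc ∫⁻ y, ‖u0 y‖ₑ ^ 2 * W0 y ∂ν
      ≤ ∫⁻ y, liminf (fun m => ‖u m y‖ₑ ^ 2 * W m y) atTop ∂ν := by
        refine lintegral_mono_ae ?_
        filter_upwards [h1, h2] with y hy1 hy2
        exact mul_le_liminf (ENNReal.Tendsto.pow hy1.enorm) hy2
    _ ≤ liminf (fun m => ∫⁻ y, ‖u m y‖ₑ ^ 2 * W m y ∂ν) atTop :=
        lintegral_liminf_le' fun m => ((hu m).enorm.pow_const 2).mul (hW m)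
    _ ≤ L' := liminf_le_of_frequently_le' (hb L' hL').frequently

theorem finrank_real : Module.finrank ℝ (Fin n → ℂ) = 2 * n := by
  rw [Module.finrank_pi_fintype]
  simp [Complex.finrank_real_complex, mul_comm]

/-- a continuous function square integrable against `‖y - x‖ ^ (-2n)` vanishes at `x` -/
theorem eq_zero_of_pole (hn : 0 < n) {u : (Fin n → ℂ) → ℂ} {x : Fin n → ℂ}
    (hu : ContinuousAt u x) {S : Set (Fin n → ℂ)} (hS : S ∈ 𝓝 x) {W : (Fin n → ℂ) → ℝ≥0∞}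
    {C : ℝ} (hW : ∀ᶠ y in 𝓝[≠] x,
      ENNReal.ofReal (Real.exp (-(2 * n * Real.log ‖y - x‖ + C))) ≤ W y)
    (hfin : ∫⁻ y in S, ‖u y‖ₑ ^ 2 * W y < ∞) : u x = 0 := by
  by_contra h0
  have hpos : 0 < ‖u x‖ / 2 := by positivity
  have h1 : ∀ᶠ y in 𝓝 x, ‖u x‖ / 2 < ‖u y‖ :=
    hu.norm.eventually (lt_mem_nhds (by linarith))
  obtain ⟨δ, hδ, hδ'⟩ := Metric.mem_nhds_iff.1
    (inter_mem (inter_mem hS h1) (eventually_nhdsWithin_iff.1 hW))
  have : Nonempty (Fin n) := ⟨⟨0, hn⟩⟩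
  set c : ℝ≥0∞ := ENNReal.ofReal ((‖u x‖ / 2) ^ 2 * Real.exp (-C)) with hc
  have hc0 : c ≠ 0 := (ENNReal.ofReal_pos.2 (by positivity)).ne'
  set P : (Fin n → ℂ) → ℝ≥0∞ := fun y =>
    (ENNReal.ofReal ‖y‖) ^ (-(Module.finrank ℝ (Fin n → ℂ) : ℝ)) with hP
  have h2 : ∫⁻ y in ball (0 : Fin n → ℂ) δ, P y = ∞ :=
    L934.lintegral_ball_norm_eq_top volume (by rw [finrank_real]; omega) hδ
  have h3 : ∫⁻ y in ball x δ, P (y - x) = ∫⁻ y in ball (0 : Fin n → ℂ) δ, P y := by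
    have := (measurePreserving_add_right (volume : Measure (Fin n → ℂ)) x).setLIntegral_comp_emb
      (Homeomorph.addRight x).measurableEmbedding (fun y => P (y - x)) (ball 0 δ)
    simp only [add_sub_cancel_right] at this
    rw [this]
    congr 2
    ext y
    simp
  have h4 : ∫⁻ y in ball x δ, c * P (y - x) ≤ ∫⁻ y in ball x δ, ‖u y‖ₑ ^ 2 * W y := by
    refine lintegral_mono_ae ?_
    filter_upwards [ae_restrict_mem measurableSet_ball,
      ae_restrict_of_ae (compl_mem_ae_iff.2 (measure_singleton x))] with y hy hyx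
    obtain ⟨⟨-, hy1⟩, hy2⟩ := hδ' hy
    have hy3 : 0 < ‖y - x‖ := norm_pos_iff.2 (sub_ne_zero.2 hyx)
    have e1 : P (y - x) = ENNReal.ofReal (Real.exp (-(2 * n * Real.log ‖y - x‖))) := by
      rw [hP]
      simp only
      rw [ENNReal.ofReal_rpow_of_pos hy3, Real.rpow_def_of_pos hy3, finrank_real]
      congr 2
      push_cast
      ring
    have e2 : ENNReal.ofReal ((‖u x‖ / 2) ^ 2) ≤ ‖u y‖ₑ ^ 2 := by
      rw [ENNReal.ofReal_pow hpos.le, ← ofReal_norm]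
      gcongr
      exact le_of_lt hy1
    refine le_trans (le_of_eq ?_) (mul_le_mul' e2 (hy2 hyx))
    rw [e1, hc, ← ENNReal.ofReal_mul (by positivity), ← ENNReal.ofReal_mul (by positivity),
      mul_assoc, ← Real.exp_add]
    congr 3
    ring
  rw [lintegral_const_mul' _ _ ENNReal.ofReal_ne_top, h3, h2, ENNReal.mul_top hc0] at h4
  have h5 := (h4.trans (lintegral_mono_set fun y hy => (hδ' hy).1.1)).trans_lt hfin
  exact lt_irrefl _ h5

theorem enorm_add_sq_le (a b : ℂ) : ‖a + b‖ₑ ^ 2 ≤ 2 * ‖a‖ₑ ^ 2 + 2 * ‖b‖ₑ ^ 2 := by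
  have h : ‖a + b‖ ^ 2 ≤ 2 * ‖a‖ ^ 2 + 2 * ‖b‖ ^ 2 := by
    have h1 := norm_add_le a b
    have h2 : ‖a + b‖ ^ 2 ≤ (‖a‖ + ‖b‖) ^ 2 := by gcongr
    nlinarith [sq_nonneg (‖a‖ - ‖b‖)]
  have e : ∀ c : ℂ, ‖c‖ₑ ^ 2 = ENNReal.ofReal (‖c‖ ^ 2) := fun c => by
    rw [ENNReal.ofReal_pow (norm_nonneg _), ofReal_norm]
  rw [e, e, e]
  refine (ENNReal.ofReal_le_ofReal h).trans (le_of_eq ?_)
  rw [ENNReal.ofReal_add (by positivity) (by positivity), ENNReal.ofReal_mul (by norm_num),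
    ENNReal.ofReal_mul (by norm_num)]
  simp

theorem enorm_sq_eq (c : ℂ) : ‖c‖ₑ ^ 2 = ENNReal.ofReal (‖c‖ ^ 2) := by
  rw [ENNReal.ofReal_pow (norm_nonneg _), ofReal_norm]

end Crest.Agent.X261.Wand.Lim
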