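import Crest.Agent.R271.Engine_51
import Crest.Agent.R271.BallSolver_399
import Crest.Agent.X261.Wand.Lim

/-!
# Row 261, package WAND (helper57), file `Solve`

Hörmander's estimate on a polydisc for the weight `f + κ (g - f)`, `κ t = t/2 + log (1 + e^t)/2`,
and the datum `∂̄ (θ (g - f) h)`, for smooth plurisubharmonic `f`, `g`.
-/

set_option autoImplicit false

open Set Filter Topology MeasureTheory Metric ComplexConjugate
open scoped ENNReal

noncomputable section

namespace Crest.Agent.X261.Wand.Solve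

open Crest.Agent.R271 Crest.Agent.R271.Ho51 Crest.Agent.R271.Ball399

/-- the convex function -/
def kap (t : ℝ) : ℝ := t / 2 + Real.log (1 + Real.exp t) / 2

/-- its first derivative -/
def k1 (t : ℝ) : ℝ := 1 / 2 + Real.exp t / (1 + Real.exp t) / 2

/-- its second derivative -/
def k2 (t : ℝ) : ℝ := Real.exp t / (1 + Real.exp t) ^ 2 / 2

theorem pos1 (t : ℝ) : 0 < 1 + Real.exp t := by positivity

theorem contDiff_kap : ContDiff ℝ (⊤ : ℕ∞) kap :=
  (contDiff_id.div_const 2).add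
    (((contDiff_const.add Real.contDiff_exp).log fun t => (pos1 t).ne').div_const 2)

theorem hasDerivAt_kap (t : ℝ) : HasDerivAt kap (k1 t) t :=
  ((hasDerivAt_id t).div_const 2).add
    ((((Real.hasDerivAt_exp t).const_add 1).log (pos1 t).ne').div_const 2)

theorem hasDerivAt_k1 (t : ℝ) : HasDerivAt k1 (k2 t) t := by
  have h := ((((Real.hasDerivAt_exp t).div ((Real.hasDerivAt_exp t).const_add 1)
    (pos1 t).ne').div_const 2).const_add (1 / 2))
  refine h.congr_deriv ?_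
  unfold k2
  have := pos1 t
  field_simp
  ring

theorem deriv_kap : deriv kap = k1 := funext fun t => (hasDerivAt_kap t).deriv

theorem deriv_k1 : deriv k1 = k2 := funext fun t => (hasDerivAt_k1 t).deriv

theorem k1_nonneg (t : ℝ) : 0 ≤ k1 t := by unfold k1; positivity

theorem k1_le (t : ℝ) : k1 t ≤ 1 := by
  unfold k1
  have : Real.exp t / (1 + Real.exp t) ≤ 1 := (div_le_one (pos1 t)).2 (by linarith)
  linarith

theorem k2_pos (t : ℝ) : 0 < k2 t := by unfold k2; positivity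

theorem continuous_k2 : Continuous k2 :=
  (Real.continuous_exp.div ((continuous_const.add Real.continuous_exp).pow 2)
    fun t => (pow_pos (pos1 t) 2).ne').div_const 2

theorem kap_mono : Monotone kap := fun s t h => by
  unfold kap
  have : Real.log (1 + Real.exp s) ≤ Real.log (1 + Real.exp t) :=
    Real.log_le_log (pos1 s) (by gcongr)
  linarith

theorem half_le_kap (t : ℝ) : t / 2 ≤ kap t := by
  unfold kap
  have : 0 ≤ Real.log (1 + Real.exp t) := Real.log_nonneg (by linarith [Real.exp_pos t])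
  linarith

theorem add_kap_eq (a b : ℝ) :
    a + kap (b - a) = b / 2 + Real.log (Real.exp a + Real.exp b) / 2 := by
  have : Real.exp a + Real.exp b = Real.exp a * (1 + Real.exp (b - a)) := by
    rw [mul_add, mul_one, ← Real.exp_add]; congr 2; ring
  rw [this, Real.log_mul (Real.exp_pos a).ne' (pos1 _).ne', Real.log_exp, kap]
  ring

theorem add_kap_mono {a b a' b' : ℝ} (ha : a ≤ a') (hb : b ≤ b') :
    a + kap (b - a) ≤ a' + kap (b' - a') := by
  rw [add_kap_eq, add_kap_eq]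
  have : Real.log (Real.exp a + Real.exp b) ≤ Real.log (Real.exp a' + Real.exp b') :=
    Real.log_le_log (by positivity) (by gcongr)
  linarith

theorem add_kap_le {a b M : ℝ} (ha : a ≤ M) (hb : b ≤ M) :
    a + kap (b - a) ≤ b / 2 + (M + 1) / 2 := by
  rw [add_kap_eq]
  have h1 : Real.exp a + Real.exp b ≤ Real.exp (M + 1) := by
    have h2 : Real.exp a ≤ Real.exp M := Real.exp_le_exp.2 ha
    have h3 : Real.exp b ≤ Real.exp M := Real.exp_le_exp.2 hb
    have h4 : (2 : ℝ) ≤ Real.exp 1 := by linarith [Real.add_one_le_exp 1]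
    rw [Real.exp_add]
    nlinarith [Real.exp_pos M]
  have := Real.log_le_log (by positivity) h1
  rw [Real.log_exp] at this
  linarith

section rdom

variable {n : ℕ} {M : Type*} [TopologicalSpace M] [RDom n M]

theorem levi_kap {f g : M → ℝ} (hf : Sm f) (hg : Sm g) {x : M} {w : Fin n → ℂ}
    (h1 : 0 ≤ Levi f x w) (h2 : 0 ≤ Levi g x w) :
    k2 (g x - f x) * ‖∑ j, dz j (fun y => ((g y - f y : ℝ) : ℂ)) x * w j‖ ^ 2 ≤
      Levi (fun y => f y + kap (g y - f y)) x w := by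
  have hF : Sm fun y => g y - f y := hg.sub hf
  have e1 := Levi_add hF hf x w
  simp only [sub_add_cancel] at e1
  rw [Levi_add hf (Sm.comp contDiff_kap hF), Levi_comp hF contDiff_kap, deriv_kap, deriv_k1]
  have e2 : Levi (fun y => g y - f y) x w = Levi g x w - Levi f x w := by
    have : Levi (fun y => g y) x w = Levi g x w := rfl
    linarith
  rw [e2]
  have h3 := k1_nonneg (g x - f x)
  have h4 := k1_le (g x - f x)
  nlinarith [mul_nonneg h3 h2, mul_nonneg (sub_nonneg.2 h4) h1]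

theorem db_data {F : M → ℝ} (hF : Sm F) {θ : ℝ → ℝ} (hθ : ContDiff ℝ (⊤ : ℕ∞) θ) {h : M → ℂ}
    (hh : Sm h) {x : M} (hh' : ∀ j, db j h x = 0) (w : Fin n → ℂ) :
    ‖∑ j, db j (fun y => ((θ (F y) : ℝ) : ℂ) * h y) x * conj (w j)‖ ^ 2 =
      deriv θ (F x) ^ 2 * ‖h x‖ ^ 2 * ‖∑ j, dz j (fun y => (F y : ℂ)) x * w j‖ ^ 2 := by
  have hθF : Sm fun y => θ (F y) := Sm.comp hθ hF
  have hd : HasDerivAt θ (deriv θ (F x)) (F x) := (hθ.differentiable (by simp) _).hasDerivAt
  have e : ∑ j, db j (fun y => ((θ (F y) : ℝ) : ℂ) * h y) x * conj (w j) =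
      ((deriv θ (F x) : ℝ) : ℂ) * h x * conj (∑ j, dz j (fun y => (F y : ℂ)) x * w j) := by
    rw [map_sum, Finset.mul_sum]
    refine Finset.sum_congr rfl fun j _ => ?_
    rw [db_mul hθF.ofReal hh, hh', db_comp_real hF hθF x hd, db_ofReal hF, map_mul]
    ring
  rw [e, norm_mul, norm_mul, RCLike.norm_conj, Complex.norm_real, mul_pow, mul_pow,
    Real.norm_eq_abs, sq_abs]

end rdom

variable {n : ℕ} {r : ℝ}

theorem contDiffOn_of_hol {h : (Fin n → ℂ) → ℂ} (hh : DifferentiableOn ℂ h (ball 0 r)) :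
    ContDiffOn ℝ (⊤ : ℕ∞) h (ball 0 r) :=
  ((R266.SCV.analyticOnNhd_of_differentiableOn isOpen_ball hh).contDiffOn
    isOpen_ball.uniqueDiffOn).restrict_scalars ℝ

theorem dbar0_of_hol {h : (Fin n → ℂ) → ℂ} {z : Fin n → ℂ} (hh : DifferentiableAt ℂ h z)
    (j : Fin n) : dbar0 j h z = 0 := by
  have e : (Pi.single j Complex.I : Fin n → ℂ) = Complex.I • Pi.single j 1 := by
    rw [← Pi.single_smul', smul_eq_mul, mul_one]
  rw [dbar0, e, R266.SCV.fderiv_real_smul_I hh, smul_eq_mul, ← mul_assoc, Complex.I_mul_I]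
  ring

/-- smooth plurisubharmonic functions on the polydisc -/
structure SP (r : ℝ) (f : (Fin n → ℂ) → ℝ) : Prop where
  sm : ContDiffOn ℝ (⊤ : ℕ∞) f (ball 0 r)
  lev : ∀ z ∈ ball (0 : Fin n → ℂ) r, ∀ w, 0 ≤ lev0 f z w

theorem exists_const {θ : ℝ → ℝ} (hθ : ContDiff ℝ (⊤ : ℕ∞) θ)
    (hθ' : ∀ t, t ∉ Icc (0 : ℝ) 1 → deriv θ t = 0) :
    ∃ Q : ℝ, 0 ≤ Q ∧ ∀ t, deriv θ t ^ 2 / k2 t * Real.exp (-kap t) ≤ if t ≤ 1 then Q else 0 := by
  have hc : Continuous fun t => deriv θ t ^ 2 / k2 t * Real.exp (-kap t) :=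
    (((hθ.continuous_deriv (by simp)).pow 2).div continuous_k2 fun t => (k2_pos t).ne').mul
      (Real.continuous_exp.comp contDiff_kap.continuous.neg)
  obtain ⟨Q, hQ⟩ := (isCompact_Icc (a := (0 : ℝ)) (b := 1)).bddAbove_image hc.continuousOn
  refine ⟨max Q 0, le_max_right _ _, fun t => ?_⟩
  by_cases ht : t ∈ Icc (0 : ℝ) 1
  · rw [if_pos ht.2]
    exact (hQ (mem_image_of_mem _ ht)).trans (le_max_left _ _)
  · rw [hθ' t ht]
    split_ifs <;> simp

/-- Hörmander's estimate for the datum `∂̄ (θ (g - f) h)` -/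
theorem solve {θ : ℝ → ℝ} (hθ : ContDiff ℝ (⊤ : ℕ∞) θ) {Q : ℝ}
    (hQ : ∀ t, deriv θ t ^ 2 / k2 t * Real.exp (-kap t) ≤ if t ≤ 1 then Q else 0)
    (hr : 0 < r) {f g : (Fin n → ℂ) → ℝ} (hf : SP r f) (hg : SP r g) {h : (Fin n → ℂ) → ℂ}
    (hh : DifferentiableOn ℂ h (ball 0 r)) :
    ∃ V : (Fin n → ℂ) → ℂ, DifferentiableOn ℂ V (ball 0 r) ∧
      ∫⁻ z in ball (0 : Fin n → ℂ) r, ‖V z - θ (g z - f z) * h z‖ₑ ^ 2 *
        ENNReal.ofReal (Real.exp (-(f z + kap (g z - f z)))) ≤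
      2 * ∫⁻ z in ball (0 : Fin n → ℂ) r, ENNReal.ofReal (if g z - f z ≤ 1 then Q else 0) *
        (‖h z‖ₑ ^ 2 * ENNReal.ofReal (Real.exp (-f z))) := by
  have hF : ContDiffOn ℝ (⊤ : ℕ∞) (fun z => g z - f z) (ball 0 r) := hg.sm.sub hf.sm
  have hψ : ContDiffOn ℝ (⊤ : ℕ∞) (fun z => f z + kap (g z - f z)) (ball 0 r) :=
    hf.sm.add (contDiff_kap.comp_contDiffOn hF)
  have hhs := contDiffOn_of_hol hh
  have hG : ContDiffOn ℝ (⊤ : ℕ∞) (fun z => ((θ (g z - f z) : ℝ) : ℂ) * h z) (ball 0 r) :=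
    (Complex.ofRealCLM.contDiff.comp_contDiffOn (hθ.comp_contDiffOn hF)).mul hhs
  have key : ∀ (x : Bl n r) (w : Fin n → ℂ), k2 (g x.val - f x.val) *
      ‖∑ j, dz j (fun y : Bl n r => ((g y.val - f y.val : ℝ) : ℂ)) x * w j‖ ^ 2 ≤
      lev0 (fun z => f z + kap (g z - f z)) x.val w := by
    intro x w
    rw [← Levi_restrict hψ]
    exact levi_kap (Sm_restrict hf.sm) (Sm_restrict hg.sm)
      (by rw [Levi_restrict hf.sm]; exact hf.lev _ x.2 w)
      (by rw [Levi_restrict hg.sm]; exact hg.lev _ x.2 w)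
  obtain ⟨V, hV, hb⟩ := solver engineP hr hψ
    (fun z hz w => le_trans (mul_nonneg (k2_pos _).le (by positivity)) (key ⟨z, hz⟩ w)) hG
    (kap := fun z => deriv θ (g z - f z) ^ 2 / k2 (g z - f z) * ‖h z‖ ^ 2) (fun z hz w => by
      have e := db_data (Sm_restrict hF) hθ (Sm_restrict hhs) (x := ⟨z, hz⟩)
        (fun j => by
          rw [db_restrict]
          exact dbar0_of_hol (hh.differentiableAt (isOpen_ball.mem_nhds hz)) j) w
      have e2 : ∀ j, db j (fun y : Bl n r => ((θ (g y.val - f y.val) : ℝ) : ℂ) * h y.val)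
          ⟨z, hz⟩ = dbar0 j (fun z => ((θ (g z - f z) : ℝ) : ℂ) * h z) z := fun j =>
        db_restrict j (fun z => ((θ (g z - f z) : ℝ) : ℂ) * h z) ⟨z, hz⟩
      simp only [e2] at e
      rw [e]
      have h1 := key ⟨z, hz⟩ w
      have h2 := k2_pos (g z - f z)
      refine le_trans (le_of_eq ?_) (mul_le_mul_of_nonneg_left h1 (by positivity))
      simp only
      field_simp)
  refine ⟨V, hV, le_trans (le_of_eq ?_) (hb.trans ?_)⟩
  · refine lintegral_congr fun z => ?_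
    rw [Lim.enorm_sq_eq, ENNReal.ofReal_mul (by positivity)]
  · refine mul_le_mul_right (lintegral_mono fun z => ?_) _
    have h0 : 0 ≤ if g z - f z ≤ 1 then Q else 0 :=
      le_trans (mul_nonneg (div_nonneg (sq_nonneg _) (k2_pos _).le) (Real.exp_pos _).le) (hQ _)
    rw [Lim.enorm_sq_eq, ← ENNReal.ofReal_mul (by positivity), ← ENNReal.ofReal_mul h0]
    refine ENNReal.ofReal_le_ofReal ?_
    refine le_trans (le_of_eq ?_) (mul_le_mul_of_nonneg_right (hQ (g z - f z)) (by positivity))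
    rw [neg_add, Real.exp_add]
    ring

end Crest.Agent.X261.Wand.Solve
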