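import Crest.Agent.X261.Wand.Solve

/-!
# Row 261, package WAND (helper57), file `Step`

`step` : for singular weights `G ≤ φ + C` with smooth psh approximants on a polydisc and a
holomorphic `h`, there is a holomorphic `V` whose `φ`-norm is controlled by the norm of `h` on
`{G < φ + 2}` and which agrees with `h` at the poles of `G`.
-/

set_option autoImplicit false

open Set Filter Topology MeasureTheory Metric
open scoped ENNReal

noncomputable section

namespace Crest.Agent.X261.Wand.Step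

open Crest.Agent.X261.Wand.Solve Crest.Agent.X261.Wand.Lim

variable {n : ℕ}

/-- Lebesgue measure on the polydisc -/
abbrev vb (n : ℕ) (r : ℝ) : Measure (Fin n → ℂ) := volume.restrict (ball 0 r)

/-- smooth psh approximants from above -/
structure Apx (r : ℝ) (u : (Fin n → ℂ) → EReal) (f : ℕ → (Fin n → ℂ) → ℝ) : Prop where
  sp : ∀ j, SP r (f j)
  bdd : ∃ M : ℝ, ∀ j, ∀ z ∈ ball (0 : Fin n → ℂ) r, f j z ≤ M
  le : ∀ᵐ z ∂vb n r, ∀ j, u z ≤ f j z
  lim : ∀ᵐ z ∂vb n r, ∀ t : ℝ, u z < t → ∀ᶠ j in atTop, f j z < t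

/-- `e^{-t}` -/
def ex (t : ℝ) : ℝ≥0∞ := ENNReal.ofReal (Real.exp (-t))

theorem ex_anti {s t : ℝ} (h : s ≤ t) : ex t ≤ ex s :=
  ENNReal.ofReal_le_ofReal (Real.exp_le_exp.2 (neg_le_neg h))

theorem ex_add (s t : ℝ) : ex (s + t) = ex s * ex t := by
  rw [ex, ex, ex, ← ENNReal.ofReal_mul (Real.exp_pos _).le, ← Real.exp_add, neg_add]

theorem ex_zero : ex 0 = 1 := by simp [ex]

theorem ex_ne_top (t : ℝ) : ex t ≠ ⊤ := ENNReal.ofReal_ne_top

theorem ex_le_wt {a : EReal} {t : ℝ} (h : a ≤ t) : ex t ≤ EReal.exp (-a) := by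
  rw [ex, ← EReal.exp_coe, EReal.coe_neg]
  exact EReal.exp_monotone (EReal.neg_le_neg_iff.2 h)

theorem exists_lt_of_lt_wt {a : EReal} {c : ℝ≥0∞} (h : c < EReal.exp (-a)) :
    ∃ t : ℝ, a < t ∧ c ≤ ex t := by
  rw [← ENNReal.exp_log c, EReal.exp_lt_exp_iff, EReal.lt_neg_comm] at h
  obtain ⟨t, h1, h2⟩ := EReal.lt_iff_exists_real_btwn.1 h
  refine ⟨t, h1, ?_⟩
  rw [← ENNReal.exp_log c, ex, ← EReal.exp_coe, EReal.coe_neg]
  exact EReal.exp_monotone (EReal.lt_neg_comm.1 h2).le

theorem measurable_ex : Measurable ex :=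
  (Real.measurable_exp.comp measurable_neg).ennreal_ofReal

variable {r : ℝ}

theorem aem {X : Type*} [TopologicalSpace X] [MeasurableSpace X] [BorelSpace X]
    {f : (Fin n → ℂ) → X} (hf : ContinuousOn f (ball 0 r)) : AEMeasurable f (vb n r) :=
  hf.aemeasurable measurableSet_ball

theorem Apx.aem {u : (Fin n → ℂ) → EReal} {f : ℕ → (Fin n → ℂ) → ℝ} (h : Apx r u f) :
    AEMeasurable (fun z => EReal.exp (-u z)) (vb n r) := by
  refine aemeasurable_of_tendsto_metrizable_ae' (f := fun j z => ex (f j z))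
    (fun j => measurable_ex.comp_aemeasurable (Step.aem (h.sp j).sm.continuousOn)) ?_
  filter_upwards [h.le, h.lim] with z h1 h2
  refine tendsto_order.2 ⟨fun c hc => ?_, fun c hc =>
    Eventually.of_forall fun j => (ex_le_wt (h1 j)).trans_lt hc⟩
  obtain ⟨c', h3, h4⟩ := exists_between hc
  obtain ⟨t, h5, h6⟩ := exists_lt_of_lt_wt h4
  filter_upwards [h2 t h5] with j hj
  exact h3.trans_le (h6.trans (ex_anti hj.le))

/-- the cut-off -/
def th (t : ℝ) : ℝ := 1 - Real.smoothTransition t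

theorem contDiff_th : ContDiff ℝ (⊤ : ℕ∞) th := contDiff_const.sub Real.smoothTransition.contDiff

theorem th_of_le {t : ℝ} (h : t ≤ 0) : th t = 1 := by
  rw [th, Real.smoothTransition.zero_of_nonpos h, sub_zero]

theorem th_of_ge {t : ℝ} (h : 1 ≤ t) : th t = 0 := by
  rw [th, Real.smoothTransition.one_of_one_le h, sub_self]

theorem abs_th_le (t : ℝ) : |th t| ≤ 1 := by
  have h1 := Real.smoothTransition.nonneg t
  have h2 := Real.smoothTransition.le_one t
  rw [th, abs_le]; constructor <;> linarith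

theorem abs_th_sub_le (t : ℝ) : |th t - 1| ≤ 1 := by
  have h1 := Real.smoothTransition.nonneg t
  have h2 := Real.smoothTransition.le_one t
  rw [th, abs_le]; constructor <;> linarith

theorem deriv_th {t : ℝ} (h : t ∉ Icc (0 : ℝ) 1) : deriv th t = 0 := by
  rw [mem_Icc, not_and_or, not_le, not_le] at h
  rcases h with h | h
  · have : th =ᶠ[𝓝 t] fun _ => 1 := by
      filter_upwards [gt_mem_nhds h] with s hs using th_of_le hs.le
    rw [this.deriv_eq, deriv_const]
  · have : th =ᶠ[𝓝 t] fun _ => 0 := by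
      filter_upwards [lt_mem_nhds h] with s hs using th_of_ge hs.le
    rw [this.deriv_eq, deriv_const]

theorem enorm_real_mul_le {a : ℝ} (ha : |a| ≤ 1) (c : ℂ) : ‖(a : ℂ) * c‖ₑ ^ 2 ≤ ‖c‖ₑ ^ 2 := by
  rw [enorm_sq_eq, enorm_sq_eq]
  refine ENNReal.ofReal_le_ofReal (pow_le_pow_left₀ (norm_nonneg _) ?_ 2)
  rw [norm_mul, Complex.norm_real, Real.norm_eq_abs]
  exact mul_le_of_le_one_left (norm_nonneg _) ha

/-- the mass of `p` on `{g j - f j ≤ 1}` is asymptotically at most the mass on `T` -/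
theorem mass_le {φ G : (Fin n → ℂ) → EReal} {f g : ℕ → (Fin n → ℂ) → ℝ} (hf : Apx r φ f)
    (hg : Apx r G g) {S T : Set (Fin n → ℂ)} (hT : NullMeasurableSet T (vb n r))
    (hS : ∀ j, ∀ z ∈ ball (0 : Fin n → ℂ) r, g j z - f j z ≤ 1 → z ∈ S)
    (hT' : ∀ᵐ z ∂vb n r, z ∉ T → φ z + (2 : ℝ) ≤ G z) {h : (Fin n → ℂ) → ℂ}
    (hh : DifferentiableOn ℂ h (ball 0 r))
    (hfin : ∫⁻ z in S, ‖h z‖ₑ ^ 2 * EReal.exp (-φ z) ∂vb n r < ∞) :
    ∃ e : ℕ → ℝ≥0∞, Tendsto e atTop (𝓝 0) ∧ ∀ j,
      ∫⁻ z, {z | g j z - f j z ≤ 1}.indicator (fun z => ‖h z‖ₑ ^ 2 * EReal.exp (-φ z)) z ∂vb n r ≤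
        ∫⁻ z in S ∩ T, ‖h z‖ₑ ^ 2 * EReal.exp (-φ z) ∂vb n r + e j := by
  set p : (Fin n → ℂ) → ℝ≥0∞ := fun z => ‖h z‖ₑ ^ 2 * EReal.exp (-φ z) with hp
  have hpm : AEMeasurable p (vb n r) := ((aem hh.continuousOn).enorm.pow_const 2).mul hf.aem
  have hE : ∀ j, NullMeasurableSet {z | g j z - f j z ≤ 1} (vb n r) := fun j =>
    nullMeasurableSet_le (aem ((hg.sp j).sm.sub (hf.sp j).sm).continuousOn) aemeasurable_const
  have hm : ∀ j, AEMeasurable (({z | g j z - f j z ≤ 1} ∩ Tᶜ).indicator p) (vb n r) := fun j =>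
    hpm.indicator₀ ((hE j).inter hT.compl)
  have hfin' : ∫⁻ z, S.indicator p z ∂vb n r ≠ ∞ :=
    ((lintegral_indicator_le _ _).trans_lt hfin).ne
  have hbd : ∀ j, ({z | g j z - f j z ≤ 1} ∩ Tᶜ).indicator p ≤ᵐ[vb n r] S.indicator p := by
    intro j
    filter_upwards [ae_restrict_mem measurableSet_ball] with z hz
    by_cases h1 : z ∈ {z | g j z - f j z ≤ 1} ∩ Tᶜ
    · rw [indicator_of_mem h1, indicator_of_mem (hS j z hz h1.1)]
    · rw [indicator_of_notMem h1]; exact zero_le
  refine ⟨fun j => ∫⁻ z, ({z | g j z - f j z ≤ 1} ∩ Tᶜ).indicator p z ∂vb n r, ?_, fun j => ?_⟩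
  · have hlt : ∀ᵐ z ∂vb n r, ⨆ j, ({z | g j z - f j z ≤ 1} ∩ Tᶜ).indicator p z < ∞ := by
      refine ae_lt_top' (AEMeasurable.iSup hm) (ne_top_of_le_ne_top hfin' (lintegral_mono_ae ?_))
      filter_upwards [ae_all_iff.2 hbd] with z hz using iSup_le hz
    have := tendsto_lintegral_of_dominated_convergence' (f := fun _ => 0) (S.indicator p) hm hbd
      hfin' (by
        filter_upwards [hlt, hT', hf.lim, hg.le, hf.le] with z h1 h2 h3 h4 h5
        refine tendsto_const_nhds.congr' ?_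
        by_cases hz : z ∈ T
        · exact Eventually.of_forall fun j => (indicator_of_notMem (fun h => h.2 hz) _).symm
        by_cases h0 : h z = 0
        · refine Eventually.of_forall fun j => ?_
          simp [indicator, hp, h0]
        induction hφ : φ z with
        | top => exact absurd (hφ ▸ h5 0) (by simp)
        | bot =>
          refine Eventually.of_forall fun j => (indicator_of_notMem (fun hj => ?_) _).symm
          have h6 := (le_iSup (fun j => ({z | g j z - f j z ≤ 1} ∩ Tᶜ).indicator p z) j).trans_lt h1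
          rw [indicator_of_mem hj] at h6
          simp [hp, hφ, h0] at h6
        | coe a =>
          filter_upwards [h3 (a + 1) (by rw [hφ]; exact_mod_cast lt_add_one a)] with j hj
          refine (indicator_of_notMem (fun hj' => ?_) _).symm
          have h6 := (h2 hz).trans (h4 j)
          rw [hφ, ← EReal.coe_add, EReal.coe_le_coe_iff] at h6
          have h8 : g j z - f j z ≤ 1 := hj'.1
          linarith)
    simpa using this
  · refine le_trans ?_ (add_le_add (lintegral_indicator_le _ _) le_rfl)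
    rw [← lintegral_add_right' _ (hm j)]
    refine lintegral_mono_ae ?_
    filter_upwards [ae_restrict_mem measurableSet_ball] with z hz
    by_cases h1 : z ∈ {z | g j z - f j z ≤ 1}
    · rw [indicator_of_mem h1]
      by_cases h2 : z ∈ T
      · rw [indicator_of_mem (show z ∈ S ∩ T from ⟨hS j z hz h1, h2⟩)]; exact le_self_add
      · rw [indicator_of_mem (show z ∈ {z | g j z - f j z ≤ 1} ∩ Tᶜ from ⟨h1, h2⟩)]
        exact le_add_self
    · rw [indicator_of_notMem h1]; exact zero_le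

theorem lt_add_of {a b : EReal} {t C : ℝ} (h1 : b ≤ a + C) (h2 : a < t) :
    b < ((t + C : ℝ) : EReal) := by
  refine h1.trans_lt ?_
  rw [EReal.coe_add]
  exact EReal.add_lt_add_right_coe h2 C

/-- **the Hörmander step** -/
theorem step (hn : 0 < n) (C : ℝ) : ∃ Q : ℝ≥0∞, Q ≠ ⊤ ∧ ∀ {r : ℝ}, 0 < r →
    ∀ {φ G : (Fin n → ℂ) → EReal} {f g : ℕ → (Fin n → ℂ) → ℝ}, Apx r φ f → Apx r G g →
    (∀ᵐ z ∂vb n r, G z ≤ φ z + C) → ∀ {S T : Set (Fin n → ℂ)}, NullMeasurableSet T (vb n r) →
    (∀ j, ∀ z ∈ ball (0 : Fin n → ℂ) r, g j z - f j z ≤ 1 → z ∈ S) →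
    (∀ᵐ z ∂vb n r, z ∉ T → φ z + (2 : ℝ) ≤ G z) → ∀ {h : (Fin n → ℂ) → ℂ},
    DifferentiableOn ℂ h (ball 0 r) →
    ∫⁻ z in S, ‖h z‖ₑ ^ 2 * EReal.exp (-φ z) ∂vb n r < ∞ →
    ∃ V : (Fin n → ℂ) → ℂ, DifferentiableOn ℂ V (ball 0 r) ∧
      ∫⁻ z, ‖V z‖ₑ ^ 2 * EReal.exp (-φ z) ∂vb n r ≤
        Q * ∫⁻ z in S ∩ T, ‖h z‖ₑ ^ 2 * EReal.exp (-φ z) ∂vb n r ∧
      ∀ x ∈ ball (0 : Fin n → ℂ) r, S ∈ 𝓝 x → (∃ C' : ℝ, ∃ U ∈ 𝓝 x, ∀ᵐ y ∂vb n r, y ∈ U →
        G y ≤ ((4 * n * Real.log ‖y - x‖ + C' : ℝ) : EReal)) → V x = h x := by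
  obtain ⟨Q0, hQ0, hQ⟩ := exists_const contDiff_th fun t => deriv_th
  set q : ℝ≥0∞ := ENNReal.ofReal Q0 with hq
  have hqt : q ≠ ⊤ := ENNReal.ofReal_ne_top
  set Q : ℝ≥0∞ := 2 * (ex (-kap C) * (2 * q)) + 2 with hQd
  have hQt : Q ≠ ⊤ := ENNReal.add_ne_top.2 ⟨ENNReal.mul_ne_top (by simp)
    (ENNReal.mul_ne_top (ex_ne_top _) (ENNReal.mul_ne_top (by simp) hqt)), by simp⟩
  refine ⟨Q, hQt, fun {r} hr φ G f g hf hg hC S T hT hS hT' h hh hfin => ?_⟩
  set p : (Fin n → ℂ) → ℝ≥0∞ := fun z => ‖h z‖ₑ ^ 2 * EReal.exp (-φ z) with hp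
  have hpm : AEMeasurable p (vb n r) := ((aem hh.continuousOn).enorm.pow_const 2).mul hf.aem
  set ψ : ℕ → (Fin n → ℂ) → ℝ := fun j z => f j z + kap (g j z - f j z) with hψ
  have hFc : ∀ j, ContinuousOn (fun z => g j z - f j z) (ball 0 r) := fun j =>
    ((hg.sp j).sm.sub (hf.sp j).sm).continuousOn
  have hψc : ∀ j, ContinuousOn (ψ j) (ball 0 r) := fun j =>
    (hf.sp j).sm.continuousOn.add (contDiff_kap.continuous.comp_continuousOn (hFc j))
  have hE : ∀ j, NullMeasurableSet {z | g j z - f j z ≤ 1} (vb n r) := fun j =>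
    nullMeasurableSet_le (aem (hFc j)) aemeasurable_const
  set A : ℕ → ℝ≥0∞ := fun j => ∫⁻ z, {z | g j z - f j z ≤ 1}.indicator p z ∂vb n r with hA
  set P : ℝ≥0∞ := ∫⁻ z in S, p z ∂vb n r with hP
  have hAP : ∀ j, A j ≤ P := by
    intro j
    refine le_trans (lintegral_mono_ae ?_) (lintegral_indicator_le _ _)
    filter_upwards [ae_restrict_mem measurableSet_ball] with z hz
    by_cases h1 : z ∈ {z | g j z - f j z ≤ 1}
    · rw [indicator_of_mem h1, indicator_of_mem (hS j z hz h1)]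
    · rw [indicator_of_notMem h1]; exact zero_le
  obtain ⟨e, he, hAe⟩ := mass_le hf hg hT hS hT' hh hfin
  choose V hV hVb using fun j => solve contDiff_th hQ hr (hf.sp j) (hg.sp j) hh
  set d : ℕ → (Fin n → ℂ) → ℝ≥0∞ := fun j z =>
    ‖V j z - th (g j z - f j z) * h z‖ₑ ^ 2 * ex (ψ j z) with hd
  have hdm : ∀ j, AEMeasurable (d j) (vb n r) := fun j =>
    ((aem ((hV j).continuousOn.sub ((Complex.continuous_ofReal.comp_continuousOn
      (contDiff_th.continuous.comp_continuousOn (hFc j))).mul hh.continuousOn))).enorm.pow_const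
      2).mul (measurable_ex.comp_aemeasurable (aem (hψc j)))
  have hdb : ∀ j, ∫⁻ z, d j z ∂vb n r ≤ 2 * q * A j := by
    intro j
    refine (hVb j).trans ?_
    rw [mul_assoc, ← lintegral_const_mul' _ _ hqt]
    refine mul_le_mul_right (lintegral_mono_ae ?_) _
    filter_upwards [hf.le] with z hz
    by_cases h1 : z ∈ {z | g j z - f j z ≤ 1}
    · rw [indicator_of_mem h1, if_pos (show g j z - f j z ≤ 1 from h1)]
      exact mul_le_mul_right (mul_le_mul_right (ex_le_wt (hz j)) _) _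
    · rw [if_neg (show ¬ g j z - f j z ≤ 1 from h1)]; simp
  -- the first weights
  set W : ℕ → (Fin n → ℂ) → ℝ≥0∞ := fun j z => ex (max (f j z) (ψ j z - kap C)) with hW
  have hWm : ∀ j, AEMeasurable (W j) (vb n r) := fun j =>
    measurable_ex.comp_aemeasurable (aem ((hf.sp j).sm.continuousOn.sup
      ((hψc j).sub continuousOn_const)))
  have hb1 : ∀ j, ∫⁻ z, ‖V j z‖ₑ ^ 2 * W j z ∂vb n r ≤ Q * A j := by
    intro j
    calc ∫⁻ z, ‖V j z‖ₑ ^ 2 * W j z ∂vb n r
        ≤ ∫⁻ z, (2 * (ex (-kap C) * d j z) +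
            2 * {z | g j z - f j z ≤ 1}.indicator p z) ∂vb n r := by
          refine lintegral_mono_ae ?_
          filter_upwards [hf.le] with z hz
          have h1 := enorm_add_sq_le (V j z - th (g j z - f j z) * h z)
            (th (g j z - f j z) * h z)
          rw [sub_add_cancel] at h1
          refine (mul_le_mul_left h1 _).trans ?_
          rw [add_mul, mul_assoc, mul_assoc]
          refine add_le_add (mul_le_mul_right ?_ _) (mul_le_mul_right ?_ _)
          · rw [hd, mul_left_comm, ← ex_add]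
            exact mul_le_mul_right (ex_anti (by
              rw [neg_add_eq_sub]; exact le_max_right _ _)) _
          · by_cases h2 : z ∈ {z | g j z - f j z ≤ 1}
            · rw [indicator_of_mem h2]
              exact mul_le_mul' (enorm_real_mul_le (abs_th_le _) _)
                ((ex_anti (le_max_left _ _)).trans (ex_le_wt (hz j)))
            · rw [th_of_ge (le_of_lt (not_le.1 h2))]; simp
      _ = 2 * (ex (-kap C) * ∫⁻ z, d j z ∂vb n r) + 2 * A j := by
          rw [lintegral_add_right' _ ((hpm.indicator₀ (hE j)).const_mul 2),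
            lintegral_const_mul' _ _ (by simp), lintegral_const_mul' _ _ (ex_ne_top _),
            lintegral_const_mul' _ _ (by simp)]
      _ ≤ 2 * (ex (-kap C) * (2 * q * A j)) + 2 * A j := by gcongr; exact hdb j
      _ = Q * A j := by rw [hQd]; ring
  obtain ⟨M1, hM1⟩ := hf.bdd
  obtain ⟨M2, hM2⟩ := hg.bdd
  set M := max M1 M2 with hM
  have hψle : ∀ j, ∀ z ∈ ball (0 : Fin n → ℂ) r, ψ j z ≤ g j z / 2 + (M + 1) / 2 :=
    fun j z hz => add_kap_le ((hM1 j z hz).trans (le_max_left _ _))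
      ((hM2 j z hz).trans (le_max_right _ _))
  set M' := max M1 (M2 / 2 + (M + 1) / 2 - kap C) with hM'
  obtain ⟨J, V0, hJ, hV0, hlim⟩ := seq_montel hV (K := ex (-M') * (Q * P))
    (ENNReal.mul_ne_top (ex_ne_top _) (ENNReal.mul_ne_top hQt hfin.ne))
    (Eventually.of_forall fun j => by
      refine le_trans ?_ (mul_le_mul_right ((hb1 j).trans (mul_le_mul_right (hAP j) _)) _)
      rw [← lintegral_const_mul' _ _ (ex_ne_top _)]
      refine setLIntegral_mono' measurableSet_ball fun z hz => ?_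
      rw [mul_left_comm, ← ex_add]
      refine le_trans (le_of_eq (by rw [ex_zero, mul_one]))
        (mul_le_mul_right (ex_anti (t := 0) ?_) _)
      have h1 := hψle j z hz
      have h2 := hM2 j z hz
      have h3 : max (f j z) (ψ j z - kap C) ≤ M' := max_le_max (hM1 j z hz) (by linarith)
      linarith)
  refine ⟨V0, hV0, ?_, fun x hx hSx ⟨C', U, hU, hC'⟩ => ?_⟩
  · refine fatou (u := fun m => V (J m)) (W := fun m => W (J m))
      (fun m => aem (hV _).continuousOn) (fun m => hWm _)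
      ((ae_restrict_mem measurableSet_ball).mono hlim) ?_ fun L' hL' => ?_
    · filter_upwards [hf.lim, hg.lim, hC] with z h1 h2 h3 c hc
      obtain ⟨t, h4, h5⟩ := exists_lt_of_lt_wt hc
      filter_upwards [hJ.eventually (h1 t h4), hJ.eventually (h2 _ (lt_add_of h3 h4))] with m h6 h7
      refine h5.trans (ex_anti (max_le h6.le ?_))
      have := add_kap_mono h6.le h7.le
      rw [add_sub_cancel_left] at this
      simp only [hψ]
      linarith
    · have h1 := (ENNReal.Tendsto.const_mul (a := Q) (he.comp hJ) (Or.inr hQt)).const_add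
        (Q * ∫⁻ z in S ∩ T, p z ∂vb n r)
      rw [mul_zero, add_zero] at h1
      filter_upwards [h1.eventually (gt_mem_nhds hL')] with m hm
      refine ((hb1 _).trans ((mul_le_mul_right (hAe _) _).trans ?_)).trans hm.le
      rw [mul_add]
      exact le_rfl
  · obtain ⟨δ, hδ, hδ'⟩ := Metric.mem_nhds_iff.1 (inter_mem (inter_mem hSx
      (isOpen_ball.mem_nhds hx)) hU)
    have hsub : ball x δ ⊆ ball 0 r := fun y hy => (hδ' hy).1.2
    have hν : (vb n r).restrict (ball x δ) = volume.restrict (ball x δ) :=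
      Measure.restrict_restrict_of_subset hsub
    refine sub_eq_zero.1 (eq_zero_of_pole hn (u := fun y => V0 y - h y)
      ((hV0.sub hh).continuousOn.continuousAt (isOpen_ball.mem_nhds hx)) (ball_mem_nhds x hδ)
      (C := (C' + 1) / 2 + (M + 1) / 2) (Eventually.of_forall fun _ => le_rfl) ?_)
    rw [← hν]
    refine lt_of_le_of_lt (fatou (u := fun m y => V (J m) y - h y) (W := fun m y => ex (ψ (J m) y))
      (fun m => (aem ((hV _).sub hh).continuousOn).restrict)
      (fun m => (measurable_ex.comp_aemeasurable (aem (hψc _))).restrict) ?_ ?_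
      (L := 2 * (2 * q * P) + 2 * P) fun L' hL' => Eventually.of_forall fun m => ?_) ?_
    · refine ae_restrict_of_ae ((ae_restrict_mem measurableSet_ball).mono fun y hy => ?_)
      exact (hlim y hy).sub_const _
    · filter_upwards [ae_restrict_mem measurableSet_ball, ae_restrict_of_ae hg.lim,
        ae_restrict_of_ae hC'] with y hy h1 hyx c hc
      have h2 := (hyx (hδ' hy).2).trans_lt (EReal.coe_lt_coe_iff.2 (lt_add_one _))
      filter_upwards [hJ.eventually (h1 _ h2)] with m hm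
      refine hc.le.trans (ex_anti ?_)
      have := hψle (J m) y (hsub hy)
      linarith
    · refine le_trans ?_ hL'.le
      calc ∫⁻ y in ball x δ, ‖V (J m) y - h y‖ₑ ^ 2 * ex (ψ (J m) y) ∂vb n r
          ≤ ∫⁻ y in ball x δ, (2 * d (J m) y + 2 * p y) ∂vb n r := by
            refine lintegral_mono_ae ?_
            filter_upwards [ae_restrict_of_ae hf.le] with z hz
            have h1 := enorm_add_sq_le (V (J m) z - th (g (J m) z - f (J m) z) * h z)
              (((th (g (J m) z - f (J m) z) - 1 : ℝ) : ℂ) * h z)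
            have e1 : V (J m) z - th (g (J m) z - f (J m) z) * h z +
              ((th (g (J m) z - f (J m) z) - 1 : ℝ) : ℂ) * h z = V (J m) z - h z := by
              push_cast; ring
            rw [e1] at h1
            refine (mul_le_mul_left h1 _).trans ?_
            rw [add_mul, mul_assoc, mul_assoc]
            refine add_le_add le_rfl (mul_le_mul_right ?_ _)
            rcases le_total (g (J m) z - f (J m) z) 0 with h2 | h2
            · rw [th_of_le h2]; simp
            · refine mul_le_mul' (enorm_real_mul_le (abs_th_sub_le _) _)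
                ((ex_anti ?_).trans (ex_le_wt (hz (J m))))
              have := half_le_kap (g (J m) z - f (J m) z)
              simp only [hψ]
              linarith
        _ = 2 * ∫⁻ y in ball x δ, d (J m) y ∂vb n r + 2 * ∫⁻ y in ball x δ, p y ∂vb n r := by
            rw [lintegral_add_right' _ (hpm.restrict.const_mul 2),
              lintegral_const_mul' _ _ (by simp), lintegral_const_mul' _ _ (by simp)]
        _ ≤ 2 * (2 * q * P) + 2 * P := by
            gcongr
            · exact (setLIntegral_le_lintegral _ _).trans ((hdb _).trans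
                (mul_le_mul_right (hAP _) _))
            · exact lintegral_mono_set fun y hy => (hδ' hy).1.1
    · exact ENNReal.add_lt_top.2 ⟨ENNReal.mul_lt_top (by simp) (ENNReal.mul_lt_top
        (ENNReal.mul_lt_top (by simp) hqt.lt_top) hfin), ENNReal.mul_lt_top (by simp) hfin⟩

end Crest.Agent.X261.Wand.Step
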